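import Vale.Agent.P284.H395.StkS
import Vale.Agent.P284.H625.NS.Spec
import Vale.Agent.P284.H619.NulS
import Mathlib.Topology.Baire.Lemmas

/-!
# P284 (helper378), module C (the isotrivial case): interface statements

`ThE`: the relative form `Θ` on `E`, with its potentials over the generic fibres. `LC`: leaf chart at a
good point. `IsoE`: output of NS in the isotrivial case. `DKStmt`: discreteness on one fibre.
`NIStmt`: near identity sheet relations (local finiteness fails). `CStmt`: the isotrivial case is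
impossible.
-/

open scoped Manifold ContDiff Topology InnerProductSpace ComplexConjugate
open Filter Set Metric

noncomputable section

namespace Vale.Agent.P284.H378

open Vale.Agent.P272.K Vale.Agent.P284.H894 Vale.Agent.P284.H894.G Vale.Agent.P284.H894.V
  Vale.Agent.P284.H894.W Vale.Agent.P284.H573 Vale.Agent.P284.H213.Grp Vale.Agent.P284.H395
  Vale.Agent.P284.H619 Vale.Agent.P284.H625

section
variable {n q r k s m : ℕ} {X E Γ W H : Type} [TopologicalSpace X] [ChartedSpace (Cm n) X]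
  [TopologicalSpace E] [Group Γ] [MulAction Γ E]
  [NormedAddCommGroup W] [InnerProductSpace ℂ W] [NormedAddCommGroup H] [InnerProductSpace ℂ H]

/-- The relative form `Θ` on `E` (only its values on vertical vectors at regular points matter),
equivariant under `Γ`, with potentials over the fibres `t ∉ M₀`. -/
structure ThE (p : E → X) (F : E → Cm q) (K : Subgroup Γ) (π : Γ →* (W ≃ₗᵢ[ℂ] W))
    (Θ : E → Chart n X → (Cm n →L[ℂ] W)) (M₀ : Set (Cm q)) : Prop where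
  hol : ∀ y e, Reg (n := n) p F y → At e (p y) → ∃ A : Cm n → (Cm n →L[ℂ] W),
    AnalyticAt ℂ A (e (p y)) ∧ ∀ᶠ y' in 𝓝 y, ∀ ξ ∈ VS p F y' e, Θ y' e ξ = A (e (p y')) ξ
  change : ∀ y e e', Reg (n := n) p F y → At e (p y) → At e' (p y) → ∀ ξ ∈ VS p F y e,
    Θ y e ξ = Θ y e' (fderiv ℂ (fun z => e' (e.symm z)) (e (p y)) ξ)
  equi : ∀ (g : Γ) y e, Reg (n := n) p F y → At e (p y) → ∀ ξ ∈ VS p F y e,
    Θ (g • y) e ξ = π g (Θ y e ξ)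
  pot : ∀ t ∉ M₀, ∃ u : E → W, VPot p F t W Θ u ∧ VEqui p F t K π Θ u

/-- The leaf chart at the good point `y`: `b` is a submersion to `ℂ^(q+r)`, `F = tq ∘ b`,
`Θ = d(F0 ∘ b)` on vertical vectors, `v = (det db)^m γ(β(b))`, the leaves are the fibres of `β`, along
which `F` moves in the directions of `range N`; `sheet` is the sheet property: a germ `ψ` of maps which
maps the lines of `U g ∘ v` to those of `v` and changes `tq` by a constant, preserves `Θ`. -/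
structure LC (p : E → X) (F : E → Cm q) (m : ℕ) (v : E → Chart n X → (Fin (q + r) → Cm n) → H)
    (U : Γ → (H →ₗᵢ[ℂ] H)) (π : Γ →* (W ≃ₗᵢ[ℂ] W)) (Θ : E → Chart n X → (Cm n →L[ℂ] W))
    (N : Cm k →L[ℂ] Cm q) (y : E) (e : Chart n X) (b : Cm n → Cm (q + r))
    (F0 : Cm (q + r) → W) (β : Cm (q + r) → Cm s) (γ : Cm s → H) (τ : Cm s → Cm q) : Prop where
  mem : At e (p y)
  ban : AnalyticAt ℂ b (e (p y))
  bsurj : Function.Surjective (fderiv ℂ b (e (p y)))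
  t_eq : ∀ᶠ y' in 𝓝 y, F y' = tq (b (e (p y')))
  F0an : AnalyticAt ℂ F0 (b (e (p y)))
  pot : ∀ᶠ y' in 𝓝 y, ∀ ξ ∈ VS p F y' e, Θ y' e ξ = fderiv ℂ (fun z => F0 (b z)) (e (p y')) ξ
  F0imm : ∀ ζ : Cm (q + r), tq ζ = 0 → fderiv ℂ F0 (b (e (p y))) ζ = 0 → ζ = 0
  βan : AnalyticAt ℂ β (b (e (p y)))
  βsurj : Function.Surjective (fderiv ℂ β (b (e (p y))))
  trans : ∀ ζ : Cm (q + r), tq ζ = 0 → fderiv ℂ β (b (e (p y))) ζ = 0 → ζ = 0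
  γan : AnalyticAt ℂ γ (β (b (e (p y))))
  imm : ImmAt γ (β (b (e (p y))))
  v_eq : ∀ᶠ y' in 𝓝 y, ∀ ξ : Fin (q + r) → Cm n, v y' e ξ =
    (Matrix.of fun i j => fderiv ℂ b (e (p y')) (ξ j) i).det ^ m • γ (β (b (e (p y'))))
  τan : AnalyticAt ℂ τ (β (b (e (p y))))
  leaf : ∀ᶠ x in 𝓝 (b (e (p y))), tq x - τ (β x) ∈ LinearMap.range (N : Cm k →ₗ[ℂ] Cm q)
  sheet : ∃ ρ > 0, ∀ (g : Γ), ∀ x₁ ∈ ball (b (e (p y))) ρ, ∀ ψ : Cm (q + r) → Cm (q + r),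
    AnalyticAt ℂ ψ x₁ → ψ x₁ ∈ ball (b (e (p y))) ρ →
    (∃ c : Cm q, ∀ᶠ x in 𝓝 x₁, tq (ψ x) = tq x + c) →
    (∀ᶠ x in 𝓝 x₁, ∃ a : ℂ, U g (γ (β x)) = a • γ (β (ψ x))) →
    ∀ᶠ x in 𝓝 x₁, ∀ ζ : Cm (q + r), tq ζ = 0 →
      fderiv ℂ (fun x => F0 (ψ x)) x ζ = π g (fderiv ℂ F0 x ζ)

/-- `𝒢` is open with thin complement. -/
structure Thin (n : ℕ) {X E : Type} [TopologicalSpace X] [ChartedSpace (Cm n) X]
    [TopologicalSpace E] (p : E → X) (𝒢 : Set E) : Prop where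
  isOpen : IsOpen 𝒢
  thin : ∀ (y : E) (e : Chart n X), At e (p y) → ∃ j : Cm n → ℂ, AnalyticAt ℂ j (e (p y)) ∧
    (∃ᶠ z in 𝓝 (e (p y)), j z ≠ 0) ∧ ∀ᶠ y' in 𝓝 y, j (e (p y')) ≠ 0 → y' ∈ 𝒢

/-- **Output of NS** (`q + r = s + k`; `k = 0` allowed: the case of full rank). -/
structure LeafE (s : ℕ) (p : E → X) (F : E → Cm q) (m : ℕ)
    (v : E → Chart n X → (Fin (q + r) → Cm n) → H)
    (U : Γ → (H →ₗᵢ[ℂ] H)) (π : Γ →* (W ≃ₗᵢ[ℂ] W)) (Θ : E → Chart n X → (Cm n →L[ℂ] W))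
    (N : Cm k →L[ℂ] Cm q) (𝒢 : Set E) : Prop where
  form : HForm n (q + r) m p H v
  dim : q + r = s + k
  m_pos : 1 ≤ m
  Ninj : Function.Injective N
  equi : ∀ (g : Γ) y e, At e (p y) → ∀ ξ, v (g • y) e ξ = U g (v y e ξ)
  triv : ∀ g : Γ, π g = 1 → ∀ y e, At e (p y) → ∀ ξ, v (g • y) e ξ = v y e ξ
  good : Thin n p 𝒢
  inv : ∀ (g : Γ), ∀ y ∈ 𝒢, g • y ∈ 𝒢
  chart : ∀ y ∈ 𝒢, ∃ (e : Chart n X) (b : Cm n → Cm (q + r)) (F0 : Cm (q + r) → W)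
    (β : Cm (q + r) → Cm s) (γ : Cm s → H) (τ : Cm s → Cm q),
    LC p F m v U π Θ N y e b F0 β γ τ

/-- **Output of NS in the isotrivial case** (`1 ≤ k`). -/
structure IsoE (s : ℕ) (p : E → X) (F : E → Cm q) (m : ℕ)
    (v : E → Chart n X → (Fin (q + r) → Cm n) → H)
    (U : Γ → (H →ₗᵢ[ℂ] H)) (π : Γ →* (W ≃ₗᵢ[ℂ] W)) (Θ : E → Chart n X → (Cm n →L[ℂ] W))
    (N : Cm k →L[ℂ] Cm q) (𝒢 : Set E) : Prop extends LeafE s p F m v U π Θ N 𝒢 where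
  k_pos : 1 ≤ k

/-- near the good point with the leaf data `γ, τ` the element `g` is a near identity sheet map `φ`:
`U g ∘ v ∈ ℂ v ∘ φ` and `F` moves by `c g` modulo `range N`. -/
def NI (U : Γ → (H →ₗᵢ[ℂ] H)) (c : Γ → Cm q) (N : Cm k →L[ℂ] Cm q) (γ : Cm s → H)
    (τ : Cm s → Cm q) (b₀ : Cm s) (ρ : ℝ) (g : Γ) (φ : Cm s → Cm s) : Prop :=
  DifferentiableOn ℂ φ (ball b₀ ρ) ∧ ∀ x ∈ ball b₀ ρ, (∃ a : ℂ, U g (γ x) = a • γ (φ x)) ∧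
    τ (φ x) - τ x - c g ∈ LinearMap.range (N : Cm k →ₗ[ℂ] Cm q)

end

/-- **D_K**: rigidity on one generic fibre. `G ∘ b` is a potential of `Θ` near `z₀` on the fibre `F = t`,
`G` an immersion, `r` the maximal rank of `Θ` on the fibre. -/
def DKStmt : Prop :=
  ∀ (n q : ℕ) (X : Type) [TopologicalSpace X] [T2Space X] [CompactSpace X]
    [ChartedSpace (Cm n) X] [IsManifold 𝓘(ℂ, Cm n) ω X] (E Γ : Type) [TopologicalSpace E]
    [Group Γ] [MulAction Γ E] (p : E → X), IsGalois Γ p → Folner Γ →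
    ∀ (w : Chart n X → Cm n → Matrix (Fin n) (Fin n) ℂ) (F : E → Cm q) (c : Γ → Cm q)
      (K : Subgroup Γ), (∃ B, HolB p w F B) →
      (∀ g y, F (g • y) = F y + c g) → NPkg Γ q c K →
    ∀ t : Cm q, IsConnected (F ⁻¹' {t}) → (∀ y, F y = t → Reg (n := n) p F y) →
    ∀ (W : Type) [NormedAddCommGroup W] [InnerProductSpace ℂ W] [CompleteSpace W]
      (π : Γ →* (W ≃ₗᵢ[ℂ] W)) (Θ : E → Chart n X → (Cm n →L[ℂ] W)) (u : E → W),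
      VPot p F t W Θ u → VEqui p F t K π Θ u →
    ∀ (z₀ : E) (e : Chart n X), F z₀ = t → At e (p z₀) →
    ∀ (r : ℕ) (b : Cm n → Cm r) (G : Cm r → W), AnalyticAt ℂ b (e (p z₀)) →
      AnalyticAt ℂ G (b (e (p z₀))) → Function.Injective (fderiv ℂ G (b (e (p z₀)))) →
      (∀ x : Cm r, ∃ ξ ∈ VS p F z₀ e, fderiv ℂ b (e (p z₀)) ξ = x) →
      (∀ᶠ y in 𝓝 z₀, F y = t → ∀ ξ ∈ VS p F y e,
        Θ y e ξ = fderiv ℂ (fun z => G (b z)) (e (p y)) ξ) →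
      (∀ y e, F y = t → At e (p y) →
        Module.finrank ℂ ((VS p F y e).map (Θ y e : Cm n →ₗ[ℂ] W)) ≤ r) →
    ∀ (U : ℕ → (W →ₗᵢ[ℂ] W)) (c' : ℕ → W) (ψ : ℕ → Cm r → Cm r) (ρ : ℝ), 0 < ρ →
      (∀ᶠ j in atTop, ∀ x ∈ ball (b (e (p z₀))) ρ, U j (G x) + c' j = G (ψ j x)) →
      (∀ ε > 0, ∀ᶠ j in atTop, ∀ x ∈ ball (b (e (p z₀))) ρ, ‖ψ j x - x‖ < ε) →
    ∀ᶠ j in atTop, ∀ y e, F y = t → At e (p y) → ∀ ξ ∈ VS p F y e, U j (Θ y e ξ) = Θ y e ξ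

/-- Near `z` on the fibre `F = t` the isometries `U j` slide the disc `G` (a potential of `Θ`, an
immersion of `ℂ^r`) in itself, and the slides tend to the identity. -/
def SlideAt (n : ℕ) {q : ℕ} {X E W : Type} [TopologicalSpace X] [ChartedSpace (Cm n) X]
    [TopologicalSpace E] [NormedAddCommGroup W] [InnerProductSpace ℂ W] (p : E → X) (F : E → Cm q)
    (Θ : E → Chart n X → (Cm n →L[ℂ] W)) (r : ℕ) (U : ℕ → (W →ₗᵢ[ℂ] W)) (z : E) : Prop :=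
  ∃ (e : Chart n X) (b : Cm n → Cm r) (G : Cm r → W), At e (p z) ∧ AnalyticAt ℂ b (e (p z)) ∧
    AnalyticAt ℂ G (b (e (p z))) ∧ Function.Injective (fderiv ℂ G (b (e (p z)))) ∧
    (∀ x : Cm r, ∃ ξ ∈ VS p F z e, fderiv ℂ b (e (p z)) ξ = x) ∧
    (∀ᶠ y in 𝓝 z, F y = F z → ∀ ξ ∈ VS p F y e,
      Θ y e ξ = fderiv ℂ (fun z => G (b z)) (e (p y)) ξ) ∧
    ∃ (c' : ℕ → W) (ψ : ℕ → Cm r → Cm r), ∃ ρ > 0,
      (∀ᶠ j in atTop, ∀ x ∈ ball (b (e (p z))) ρ, U j (G x) + c' j = G (ψ j x)) ∧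
      ∀ ε > 0, ∀ᶠ j in atTop, ∀ x ∈ ball (b (e (p z))) ρ, ‖ψ j x - x‖ < ε

/-- **D_K**, second form: slides at all points of `𝒢 ∩ F⁻¹{t}`, the complement of which is thin in the
fibre. -/
def DK2Stmt : Prop :=
  ∀ (n q : ℕ) (X : Type) [TopologicalSpace X] [T2Space X] [CompactSpace X]
    [ChartedSpace (Cm n) X] [IsManifold 𝓘(ℂ, Cm n) ω X] (E Γ : Type) [TopologicalSpace E]
    [Group Γ] [MulAction Γ E] (p : E → X), IsGalois Γ p → Folner Γ →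
    ∀ (w : Chart n X → Cm n → Matrix (Fin n) (Fin n) ℂ) (F : E → Cm q) (c : Γ → Cm q)
      (K : Subgroup Γ), (∃ B, HolB p w F B) →
      (∀ g y, F (g • y) = F y + c g) → NPkg Γ q c K →
    ∀ t : Cm q, IsConnected (F ⁻¹' {t}) → (∀ y, F y = t → Reg (n := n) p F y) →
    ∀ (W : Type) [NormedAddCommGroup W] [InnerProductSpace ℂ W] [CompleteSpace W]
      (π : Γ →* (W ≃ₗᵢ[ℂ] W)) (Θ : E → Chart n X → (Cm n →L[ℂ] W)) (u : E → W),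
      VPot p F t W Θ u → VEqui p F t K π Θ u →
    ∀ 𝒢 : Set E, IsOpen 𝒢 → (∀ (g : Γ), ∀ y ∈ 𝒢, g • y ∈ 𝒢) →
      (∀ (y : E) (e : Chart n X), F y = t → At e (p y) → ∃ h : Cm n → ℂ,
        AnalyticAt ℂ h (e (p y)) ∧ (∃ᶠ y' in 𝓝 y, F y' = t ∧ h (e (p y')) ≠ 0) ∧
        ∀ᶠ y' in 𝓝 y, h (e (p y')) ≠ 0 → y' ∈ 𝒢) →
    ∀ (r : ℕ) (U : ℕ → (W →ₗᵢ[ℂ] W)), (∀ z ∈ 𝒢, F z = t → SlideAt n p F Θ r U z) →
    ∀ᶠ j in atTop, ∀ y e, F y = t → At e (p y) → ∀ ξ ∈ VS p F y e, U j (Θ y e ξ) = Θ y e ξ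

/-- **H3**: the kernel of the representation on the generic fibre. -/
def KerStmt : Prop :=
  ∀ (n q : ℕ) (X : Type) [TopologicalSpace X] [T2Space X] [CompactSpace X]
    [ChartedSpace (Cm n) X] [IsManifold 𝓘(ℂ, Cm n) ω X] (E Γ : Type) [TopologicalSpace E]
    [ConnectedSpace E] [Group Γ] [MulAction Γ E] (p : E → X), IsGalois Γ p → Folner Γ →
    ∀ (w : Chart n X → Cm n → Matrix (Fin n) (Fin n) ℂ) (F : E → Cm q) (c : Γ → Cm q)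
      (K : Subgroup Γ), (∃ B, HolB p w F B) →
      (∀ g y, F (g • y) = F y + c g) → NPkg Γ q c K → GenConn (n := n) p F →
    ∀ (W : Type) [NormedAddCommGroup W] [InnerProductSpace ℂ W] [CompleteSpace W]
      (π : Γ →* (W ≃ₗᵢ[ℂ] W)) (Θ : E → Chart n X → (Cm n →L[ℂ] W)) (M₀ : Set (Cm q)),
      IsMeagre M₀ → ThE p F K π Θ M₀ →
      (∃ y e, Reg (n := n) p F y ∧ At e (p y) ∧ ∃ ξ ∈ VS p F y e, Θ y e ξ ≠ 0) →
    ∃ M : Set (Cm q), IsMeagre M ∧ ∀ t ∉ M, ∀ g ∈ K, (∀ y e, F y = t → At e (p y) →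
      ∀ ξ ∈ VS p F y e, π g (Θ y e ξ) = Θ y e ξ) → g = 1

/-- **GF**: the complement of the good set is thin in the generic fibre. -/
def GFStmt : Prop :=
  ∀ (n q : ℕ) (X : Type) [TopologicalSpace X] [T2Space X] [CompactSpace X]
    [ChartedSpace (Cm n) X] [IsManifold 𝓘(ℂ, Cm n) ω X] (E Γ : Type) [TopologicalSpace E]
    [ConnectedSpace E] [Group Γ] [MulAction Γ E] (p : E → X), IsGalois Γ p →
    ∀ (w : Chart n X → Cm n → Matrix (Fin n) (Fin n) ℂ) (F : E → Cm q) (c : Γ → Cm q),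
      (∃ B, HolB p w F B) → (∀ g y, F (g • y) = F y + c g) →
      (∀ R : ℝ, {v | (∃ g : Γ, c g = v) ∧ ‖v‖ ≤ R}.Finite) →
    ∀ 𝒢 : Set E, Thin n p 𝒢 → (∀ (g : Γ), ∀ y ∈ 𝒢, g • y ∈ 𝒢) →
    ∃ M : Set (Cm q), IsMeagre M ∧ ∀ t ∉ M, (∀ y, F y = t → Reg (n := n) p F y) →
      ∀ (y : E) (e : Chart n X), F y = t → At e (p y) → ∃ h : Cm n → ℂ,
        AnalyticAt ℂ h (e (p y)) ∧ (∃ᶠ y' in 𝓝 y, F y' = t ∧ h (e (p y')) ≠ 0) ∧
        ∀ᶠ y' in 𝓝 y, h (e (p y')) ≠ 0 → y' ∈ 𝒢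

/-- **NI**: if the sheet of a good point is not locally finite modulo `S`, there are near identity
sheet maps near every good point. -/
def NIStmt : Prop :=
  ∀ (n q r k s m : ℕ) (X : Type) [TopologicalSpace X] [T2Space X] [CompactSpace X]
    [ConnectedSpace X] [ChartedSpace (Cm n) X] [IsManifold 𝓘(ℂ, Cm n) ω X] (E Γ : Type)
    [TopologicalSpace E] [ConnectedSpace E] [Group Γ] [MulAction Γ E] (p : E → X), IsGalois Γ p →
    ∀ (w : Chart n X → Cm n → Matrix (Fin n) (Fin n) ℂ) (F : E → Cm q) (c : Γ → Cm q),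
      (∃ B, HolB p w F B) → (∀ g y, F (g • y) = F y + c g) →
    ∀ (W H : Type) [NormedAddCommGroup W] [InnerProductSpace ℂ W] [CompleteSpace W]
      [NormedAddCommGroup H] [InnerProductSpace ℂ H] [CompleteSpace H]
      (π : Γ →* (W ≃ₗᵢ[ℂ] W)) (Θ : E → Chart n X → (Cm n →L[ℂ] W))
      (v : E → Chart n X → (Fin (q + r) → Cm n) → H) (U : Γ → (H →ₗᵢ[ℂ] H))
      (N : Cm k →L[ℂ] Cm q) (𝒢 : Set E), LeafE s p F m v U π Θ N 𝒢 →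
    ∀ (D : LeafDat q s k H), (∀ x, D.N x = N) →
    ∃ r₀ > 0, ∀ (g : ℕ → Γ) (y : ℕ → E) (y₀ : E) (b : ℕ → Cm s),
      Tendsto y atTop (𝓝 y₀) → NZ p v y₀ → (∀ i, b i ∈ ball D.b₀ r₀) →
      (∀ i, Sh p v F D ((g i)⁻¹ • y i) (b i)) →
    ∃ σ : ℕ → ℕ, StrictMono σ ∧
      ∀ (z : E), z ∈ 𝒢 → ∀ (e : Chart n X) (b' : Cm n → Cm (q + r)) (F0 : Cm (q + r) → W)
        (β : Cm (q + r) → Cm s) (γ : Cm s → H) (τ : Cm s → Cm q),
        LC p F m v U π Θ N z e b' F0 β γ τ → ∀ κ : Γ, c κ = 0 →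
      ∃ ρ > 0, ∀ ε > 0, ∃ j₀, ∀ i ≥ j₀, ∀ j ≥ j₀, ∃ φ : Cm s → Cm s,
        NI U c N γ τ (β (b' (e (p z)))) ρ (κ * (g (σ i) * (g (σ j))⁻¹) * κ⁻¹) φ ∧
        ∀ x ∈ ball (β (b' (e (p z)))) ρ, ‖φ x - x‖ < ε

/-- The subgroup of the elements centralizing `K` with `c g ∈ range N`. -/
def IsSub {q k : ℕ} {Γ : Type} [Group Γ] (c : Γ → Cm q) (K : Subgroup Γ) (N : Cm k →L[ℂ] Cm q)
    (S : Subgroup Γ) : Prop :=
  ∀ g, g ∈ S ↔ (∀ h ∈ K, g * h = h * g) ∧ c g ∈ LinearMap.range (N : Cm k →ₗ[ℂ] Cm q)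

/-- **LF**: the translates of a sheet are locally finite modulo `S` (`k = 0` allowed). -/
def LFStmt : Prop :=
  ∀ (n q r k s m : ℕ) (X : Type) [TopologicalSpace X] [T2Space X] [CompactSpace X]
    [ConnectedSpace X] [ChartedSpace (Cm n) X] [IsManifold 𝓘(ℂ, Cm n) ω X]
    (w : Chart n X → Cm n → Matrix (Fin n) (Fin n) ℂ), IsKahler w → ∀ (E Γ : Type)
    [TopologicalSpace E] [ConnectedSpace E] [Group Γ] [MulAction Γ E] (p : E → X), IsGalois Γ p →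
    Folner Γ →
    ∀ (F : E → Cm q) (c : Γ → Cm q) (K : Subgroup Γ), (∃ B, HolB p w F B) →
      (∀ g y, F (g • y) = F y + c g) → NPkg Γ q c K → GenConn (n := n) p F →
      (∃ y, Reg (n := n) p F y) →
    ∀ (W H : Type) [NormedAddCommGroup W] [InnerProductSpace ℂ W] [CompleteSpace W]
      [NormedAddCommGroup H] [InnerProductSpace ℂ H] [CompleteSpace H]
      (π : Γ →* (W ≃ₗᵢ[ℂ] W)) (Θ : E → Chart n X → (Cm n →L[ℂ] W)) (M₀ : Set (Cm q)),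
      IsMeagre M₀ → ThE p F K π Θ M₀ →
      (∃ y e, Reg (n := n) p F y ∧ At e (p y) ∧ ∃ ξ ∈ VS p F y e, Θ y e ξ ≠ 0) →
      (∀ g, (∀ k ∈ K, g * k = k * g) → π g = 1) →
    ∀ (v : E → Chart n X → (Fin (q + r) → Cm n) → H) (U : Γ → (H →ₗᵢ[ℂ] H))
      (N : Cm k →L[ℂ] Cm q) (𝒢 : Set E), LeafE s p F m v U π Θ N 𝒢 →
    ∀ (D : LeafDat q s k H), (∀ x, D.N x = N) → ∀ S : Subgroup Γ, IsSub c K N S →
    ∃ r₀ > 0, ∀ K₀ : Set E, IsCompact K₀ → (∀ y ∈ K₀, NZ p v y) →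
      {a : Γ ⧸ S | ∃ g : Γ, (g : Γ ⧸ S) = a ∧ ∃ y ∈ K₀, ∃ b ∈ ball D.b₀ r₀,
        Sh p v F D (g⁻¹ • y) b}.Finite

/-- **C**: the isotrivial case is impossible. -/
def CStmt : Prop :=
  ∀ (n q r k s m : ℕ) (X : Type) [TopologicalSpace X] [T2Space X] [CompactSpace X]
    [ConnectedSpace X] [ChartedSpace (Cm n) X] [IsManifold 𝓘(ℂ, Cm n) ω X]
    (w : Chart n X → Cm n → Matrix (Fin n) (Fin n) ℂ), IsKahler w → ∀ (E Γ : Type)
    [TopologicalSpace E] [ConnectedSpace E] [Group Γ] [MulAction Γ E] (p : E → X), IsGalois Γ p →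
    Folner Γ →
    ∀ (F : E → Cm q) (c : Γ → Cm q) (K : Subgroup Γ), (∃ B, HolB p w F B) →
      (∀ g y, F (g • y) = F y + c g) → NPkg Γ q c K → GenConn (n := n) p F →
      (∃ y, Reg (n := n) p F y) →
    ∀ (W H : Type) [NormedAddCommGroup W] [InnerProductSpace ℂ W] [CompleteSpace W]
      [NormedAddCommGroup H] [InnerProductSpace ℂ H] [CompleteSpace H]
      (π : Γ →* (W ≃ₗᵢ[ℂ] W)) (Θ : E → Chart n X → (Cm n →L[ℂ] W)) (M₀ : Set (Cm q)),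
      IsMeagre M₀ → ThE p F K π Θ M₀ →
      (∃ y e, Reg (n := n) p F y ∧ At e (p y) ∧ ∃ ξ ∈ VS p F y e, Θ y e ξ ≠ 0) →
      (∀ g, (∀ k ∈ K, g * k = k * g) → π g = 1) →
    ∀ (v : E → Chart n X → (Fin (q + r) → Cm n) → H) (U : Γ → (H →ₗᵢ[ℂ] H))
      (N : Cm k →L[ℂ] Cm q) (𝒢 : Set E), IsoE s p F m v U π Θ N 𝒢 → False

end Vale.Agent.P284.H378
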