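import Vale.Agent.P284.H378.LF

/-!
# P284 (helper378), module C: the isotrivial case is impossible, assembly
-/

open scoped Manifold ContDiff Topology InnerProductSpace ComplexConjugate
open Filter Set Metric

noncomputable section

set_option linter.unusedSectionVars false

namespace Vale.Agent.P284.H378

open Vale.Agent.P272.K Vale.Agent.P284.H894 Vale.Agent.P284.H894.G Vale.Agent.P284.H894.V
  Vale.Agent.P284.H894.W Vale.Agent.P284.H573 Vale.Agent.P284.H213.Grp Vale.Agent.P284.H395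
  Vale.Agent.P284.H619 Vale.Agent.P284.H625

/-- `F` moves in all directions of `range N` along the leaf -/
theorem exists_dir {q r s k : ℕ} (hdim : q + r = s + k) {N : Cm k →L[ℂ] Cm q}
    {P : Cm q →L[ℂ] Cm k}
    (hP : ∀ x, P (N x) = x) {x₀ : Cm (q + r)} {β : Cm (q + r) → Cm s} {τ : Cm s → Cm q}
    (hβ : AnalyticAt ℂ β x₀) (htr : ∀ ζ : Cm (q + r), tq ζ = 0 → fderiv ℂ β x₀ ζ = 0 → ζ = 0)
    (hτ : AnalyticAt ℂ τ (β x₀))
    (hleaf : ∀ᶠ x in 𝓝 x₀, tq x - τ (β x) ∈ LinearMap.range (N : Cm k →ₗ[ℂ] Cm q))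
    (x : Cm k) : ∃ ζ : Cm (q + r), fderiv ℂ β x₀ ζ = 0 ∧ tq ζ = N x := by
  set L : Cm (q + r) →L[ℂ] Cm s × Cm k := (fderiv ℂ β x₀).prod (P ∘L tqc q r) with hL
  have hNP : ∀ y ∈ LinearMap.range (N : Cm k →ₗ[ℂ] Cm q), N (P y) = y := by
    rintro _ ⟨x, rfl⟩
    simp only [ContinuousLinearMap.coe_coe, hP]
  have hA : ∀ ζ : Cm (q + r), fderiv ℂ β x₀ ζ = 0 → tq ζ = N (P (tq ζ)) := by
    intro ζ h1
    set A : Cm q →L[ℂ] Cm q := ContinuousLinearMap.id ℂ _ - N ∘L P with hA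
    have h3 : (fun x => A (tqc q r x) - A (τ (β x))) =ᶠ[𝓝 x₀] fun _ => 0 := by
      filter_upwards [hleaf] with x hx
      rw [← map_sub, hA]
      simp only [sub_apply, ContinuousLinearMap.id_apply, ContinuousLinearMap.comp_apply]
      rw [tqc_apply, hNP _ hx, sub_self]
    have h4 : HasFDerivAt (fun x => A (tqc q r x) - A (τ (β x)))
        (A ∘L tqc q r - A ∘L (fderiv ℂ τ (β x₀) ∘L fderiv ℂ β x₀)) x₀ :=
      (A.hasFDerivAt.comp x₀ (tqc q r).hasFDerivAt).sub (A.hasFDerivAt.comp x₀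
        (hτ.differentiableAt.hasFDerivAt.comp x₀ hβ.differentiableAt.hasFDerivAt))
    have h5 := h4.unique ((hasFDerivAt_const (0 : Cm q) x₀).congr_of_eventuallyEq h3)
    have h6 := DFunLike.congr_fun h5 ζ
    simp only [sub_apply, ContinuousLinearMap.comp_apply, h1, map_zero, sub_zero,
      zero_apply, tqc_apply, hA, ContinuousLinearMap.id_apply] at h6
    exact sub_eq_zero.1 h6
  have hinj : Function.Injective (L : Cm (q + r) →ₗ[ℂ] Cm s × Cm k) := by
    rw [injective_iff_map_eq_zero]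
    intro ζ hζ
    have h1 : fderiv ℂ β x₀ ζ = 0 := (Prod.ext_iff.1 hζ).1
    have h2 : P (tq ζ) = 0 := (Prod.ext_iff.1 hζ).2
    refine htr ζ ?_ h1
    rw [hA ζ h1, h2, map_zero]
  have hfin : Module.finrank ℂ (Cm (q + r)) = Module.finrank ℂ (Cm s × Cm k) := by
    simp [hdim]
  have hsurj := (LinearMap.injective_iff_surjective_of_finrank_eq_finrank hfin).1 hinj
  obtain ⟨ζ, hζ⟩ := hsurj (0, x)
  have h1 : fderiv ℂ β x₀ ζ = 0 := (Prod.ext_iff.1 hζ).1
  have h2 : P (tq ζ) = x := (Prod.ext_iff.1 hζ).2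
  exact ⟨ζ, h1, by rw [hA ζ h1, h2]⟩

theorem c_of (hstk : CStkStmt) (hlf : LFStmt) : CStmt := by
  intro n q r k s m X _ _ _ _ _ _ w hw E Γ _ _ _ _ p hp hFol F c K hF hFe hK hG hreg W H _ _ _ _
    _ _ π Θ M₀ hM₀ hTh hne hcen v U N 𝒢 hI
  have hL := hI.toLeafE
  obtain ⟨z₁, hz₁⟩ := hL.good.nonempty hp.cov
  obtain ⟨e, b, F0, β, γ, τ, hC⟩ := hL.chart z₁ hz₁
  obtain ⟨P, hP⟩ : ∃ P : Cm q →L[ℂ] Cm k, ∀ x, P (N x) = x := by
    obtain ⟨g, hg⟩ := LinearMap.exists_leftInverse_of_injective (N : Cm k →ₗ[ℂ] Cm q)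
      (LinearMap.ker_eq_bot.2 hL.Ninj)
    exact ⟨LinearMap.toContinuousLinearMap g, fun x => LinearMap.congr_fun hg x⟩
  have hcadd := hK.lat.add
  have hc1 : c 1 = 0 := by
    have := hcadd 1 1
    rw [mul_one] at this
    simpa using this
  have hcinv : ∀ g, c g⁻¹ = - c g := by
    intro g
    have := hcadd g g⁻¹
    rw [mul_inv_cancel, hc1] at this
    exact (neg_eq_of_add_eq_zero_right this.symm).symm
  let D : LeafDat q s k H :=
    { b₀ := β (b (e (p z₁)))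
      γ := γ
      t := τ
      N := fun _ => N
      γan := hC.γan
      imm := hC.imm
      tan := hC.τan
      Nan := analyticAt_const
      inj := hL.Ninj }
  let S : Subgroup Γ :=
    { carrier := {g | (∀ h ∈ K, g * h = h * g) ∧ c g ∈ LinearMap.range (N : Cm k →ₗ[ℂ] Cm q)}
      mul_mem' := by
        rintro g g' ⟨h1, h2⟩ ⟨h3, h4⟩
        refine ⟨fun h hh => ?_, ?_⟩
        · rw [mul_assoc, h3 h hh, ← mul_assoc, h1 h hh, mul_assoc]
        · rw [hcadd]; exact Submodule.add_mem _ h2 h4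
      one_mem' := ⟨fun h _ => by simp, by rw [hc1]; exact Submodule.zero_mem _⟩
      inv_mem' := by
        rintro g ⟨h1, h2⟩
        refine ⟨fun h hh => ?_, ?_⟩
        · have h3 := congrArg (fun x => g⁻¹ * x * g⁻¹) (h1 h hh)
          simpa [mul_assoc] using h3.symm
        · rw [hcinv]; exact Submodule.neg_mem _ h2 }
  obtain ⟨r₀, hr₀, hfin⟩ := hlf n q r k s m X w hw E Γ p hp hFol F c K hF hFe hK hG hreg W H π Θ
    M₀ hM₀ hTh hne hcen v U N 𝒢 hL D (fun _ => rfl) S (fun g => Iff.rfl)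
  have hpg : ∀ (g : Γ) (y : E), p (g • y) = p y := fun g y => ((hp.orb y (g • y)).2 ⟨g, rfl⟩).symm
  refine hstk n X w hw E Γ p hp q F c K hF hFe hK H (q + r) m ?_ hL.m_pos v hL.form s k hI.k_pos D
    z₁ ?_ S (fun g hg => hg.1) r₀ hr₀ ?_ hfin
  · have := hL.dim
    have := hI.k_pos
    omega
  · -- `LeafAt`
    have hbt : Tendsto (fun y => b (e (p y))) (𝓝 z₁) (𝓝 (b (e (p z₁)))) :=
      hC.ban.continuousAt.tendsto.comp (map_ep hp.cov hC.mem).le
    have hdb := hC.ban.differentiableAt.hasFDerivAt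
    have hd1 : HasFDerivAt (fun x => β (b x))
        (fderiv ℂ β (b (e (p z₁))) ∘L fderiv ℂ b (e (p z₁))) (e (p z₁)) :=
      hC.βan.differentiableAt.hasFDerivAt.comp _ hdb
    have hd2 : HasFDerivAt (fun x => tq (b x)) (tqc q r ∘L fderiv ℂ b (e (p z₁))) (e (p z₁)) :=
      (tqc q r).hasFDerivAt.comp _ hdb
    refine ⟨e, b, fun x => β (b x), fun x => tq (b x), hC.mem, hC.ban, hC.bsurj,
      hC.βan.comp hC.ban, ?_, rfl, hC.t_eq, ((tqc q r).analyticAt _).comp hC.ban, hC.v_eq, ?_,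
      ?_⟩
    · rw [hd1.fderiv]
      exact hC.βsurj.comp hC.bsurj
    · filter_upwards [hbt.eventually hC.leaf, hC.t_eq] with y h1 h2
      rw [h2]; exact h1
    · rintro _ ⟨x, rfl⟩
      obtain ⟨ζ, h1, h2⟩ := exists_dir hL.dim hP hC.βan hC.trans hC.τan hC.leaf x
      obtain ⟨ξ, hξ⟩ := hC.bsurj ζ
      refine ⟨ξ, ?_, ?_⟩
      · rw [hd1.fderiv, ContinuousLinearMap.comp_apply, hξ, h1]
      · rw [hd2.fderiv, ContinuousLinearMap.comp_apply, hξ, tqc_apply, h2]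
        rfl
  · -- the sheets are preserved
    rintro g ⟨hg1, hg2⟩ y x hx - ⟨e', β', h1, h2, h3, h4⟩
    have hπ : π g = 1 := hcen g hg1
    refine ⟨e', β', by rw [hpg]; exact h1, by rw [hpg]; exact h2, by rw [hpg]; exact h3, ?_⟩
    have hcont : Tendsto (fun y' : E => g⁻¹ • y') (𝓝 (g • y)) (𝓝 y) := by
      have := (hp.cont g⁻¹).tendsto (g • y)
      rwa [inv_smul_smul] at this
    filter_upwards [hcont.eventually h4, hcont.eventually (at_ev hp.cov h1)] with y' h5 h6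
    have hy' : g • g⁻¹ • y' = y' := smul_inv_smul g y'
    have hp' : p (g⁻¹ • y') = p y' := hpg _ _
    rw [hp'] at h5
    refine ⟨fun ξ => ?_, ?_⟩
    · obtain ⟨a, ha⟩ := h5.1 ξ
      refine ⟨a, ?_⟩
      rw [← ha, ← hL.triv g hπ _ e' h6 ξ, hy']
    · have h7 : F y' = F (g⁻¹ • y') + c g := by rw [← hFe, hy']
      have h8 : F y' - D.t (β' (e' (p y'))) =
          (F (g⁻¹ • y') - D.t (β' (e' (p y')))) + c g := by rw [h7]; abel
      rw [h8]
      exact Submodule.add_mem _ h5.2 hg2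

end Vale.Agent.P284.H378
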