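import Vale.Agent.P284.H378.LF
import Vale.Agent.P284.H837.SpS

/-!
# P284 (helper378), module C: local finiteness of the sheets of full rank, in the form of theorem T1'
-/

open scoped Manifold ContDiff Topology InnerProductSpace ComplexConjugate
open Filter Set Metric

noncomputable section

set_option linter.unusedSectionVars false

namespace Vale.Agent.P284.H378

open Vale.Agent.P272.K Vale.Agent.P284.H894 Vale.Agent.P284.H894.G Vale.Agent.P284.H894.V
  Vale.Agent.P284.H894.W Vale.Agent.P284.H573 Vale.Agent.P284.H213.Grp Vale.Agent.P284.H395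
  Vale.Agent.P284.H619 Vale.Agent.P284.H625 Vale.Agent.P284.H837

/-- small compact neighbourhoods in the covering space -/
theorem exists_compact_nhds {n : ℕ} {X E : Type} [TopologicalSpace X] [ChartedSpace (Cm n) X]
    [TopologicalSpace E] {p : E → X} (hp : IsCoveringMap p) {y : E} {V : Set E} (hV : V ∈ 𝓝 y) :
    ∃ K₀ ∈ 𝓝 y, IsCompact K₀ ∧ K₀ ⊆ V := by
  obtain ⟨ψ, hy, hψ⟩ := hp.isLocalHomeomorph y
  set χ := ψ.trans (chartAt (Cm n) (p y)) with hχ
  have hys : y ∈ χ.source := by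
    rw [hχ, OpenPartialHomeomorph.trans_source]
    refine ⟨hy, ?_⟩
    rw [mem_preimage, ← hψ]
    exact mem_chart_source _ _
  have h1 : χ.target ∩ χ.symm ⁻¹' V ∈ 𝓝 (χ y) := by
    refine inter_mem (χ.open_target.mem_nhds (χ.map_source hys)) ?_
    have := (χ.continuousAt_symm (χ.map_source hys)).preimage_mem_nhds (t := V)
      (by rwa [χ.left_inv hys])
    exact this
  obtain ⟨ε, hε, hsub⟩ := Metric.nhds_basis_closedBall.mem_iff.1 h1
  refine ⟨χ.symm '' closedBall (χ y) ε, ?_, ?_, ?_⟩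
  · have h2 : χ.symm '' closedBall (χ y) ε ∈ map χ.symm (𝓝 (χ y)) :=
      image_mem_map (closedBall_mem_nhds _ hε)
    rwa [χ.symm_map_nhds_eq hys] at h2
  · exact (isCompact_closedBall _ _).image_of_continuousOn
      (χ.continuousOn_symm.mono fun z hz => (hsub hz).1)
  · rintro _ ⟨z, hz, rfl⟩
    exact (hsub hz).2

theorem lfin_of_leaf (hlf : LFStmt) (n q r k s m : ℕ) (X : Type) [TopologicalSpace X] [T2Space X]
    [CompactSpace X] [ConnectedSpace X] [ChartedSpace (Cm n) X] [IsManifold 𝓘(ℂ, Cm n) ω X]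
    (w : Chart n X → Cm n → Matrix (Fin n) (Fin n) ℂ) (hw : IsKahler w) (E Γ : Type)
    [TopologicalSpace E] [ConnectedSpace E] [Group Γ] [MulAction Γ E] (p : E → X)
    (hp : IsGalois Γ p) (hFol : Folner Γ)
    (F : E → Cm q) (c : Γ → Cm q) (K : Subgroup Γ) (hF : ∃ B, HolB p w F B)
    (hFe : ∀ g y, F (g • y) = F y + c g) (hK : NPkg Γ q c K) (hG : GenConn (n := n) p F)
    (hreg : ∃ y, Reg (n := n) p F y)
    (W H : Type) [NormedAddCommGroup W] [InnerProductSpace ℂ W] [CompleteSpace W]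
    [NormedAddCommGroup H] [InnerProductSpace ℂ H] [CompleteSpace H]
    (π : Γ →* (W ≃ₗᵢ[ℂ] W)) (Θ : E → Chart n X → (Cm n →L[ℂ] W)) (M₀ : Set (Cm q))
    (hM₀ : IsMeagre M₀) (hTh : ThE p F K π Θ M₀)
    (hne : ∃ y e, Reg (n := n) p F y ∧ At e (p y) ∧ ∃ ξ ∈ VS p F y e, Θ y e ξ ≠ 0)
    (hcen : ∀ g, (∀ k ∈ K, g * k = k * g) → π g = 1)
    (v : E → Chart n X → (Fin (q + r) → Cm n) → H) (U : Γ → (H →ₗᵢ[ℂ] H))
    (N : Cm k →L[ℂ] Cm q) (𝒢 : Set E) (hL : LeafE s p F m v U π Θ N 𝒢) (hk : k = 0) :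
    LFin Γ m p v F := by
  subst hk
  obtain rfl : s = q + r := by have := hL.dim; omega
  have hcadd := hK.lat.add
  have hc1 : c 1 = 0 := by
    have := hcadd 1 1
    rw [mul_one] at this
    simpa using this
  have hcinv : ∀ g, c g⁻¹ = - c g := by
    intro g
    have := hcadd g g⁻¹
    rw [mul_inv_cancel, hc1] at this
    exact (neg_eq_of_add_eq_zero_right this.symm).symm
  have hrange : ∀ x, x ∈ LinearMap.range (N : Cm 0 →ₗ[ℂ] Cm q) ↔ x = 0 := by
    intro x
    constructor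
    · rintro ⟨y, rfl⟩
      have : y = 0 := Subsingleton.elim _ _
      rw [this, map_zero]
    · rintro rfl
      exact Submodule.zero_mem _
  let S : Subgroup Γ :=
    { carrier := {g | (∀ h ∈ K, g * h = h * g) ∧ c g ∈ LinearMap.range (N : Cm 0 →ₗ[ℂ] Cm q)}
      mul_mem' := by
        rintro g g' ⟨h1, h2⟩ ⟨h3, h4⟩
        refine ⟨fun h hh => ?_, ?_⟩
        · rw [mul_assoc, h3 h hh, ← mul_assoc, h1 h hh, mul_assoc]
        · rw [hcadd]; exact Submodule.add_mem _ h2 h4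
      one_mem' := ⟨fun h _ => by simp, by rw [hc1]; exact Submodule.zero_mem _⟩
      inv_mem' := by
        rintro g ⟨h1, h2⟩
        refine ⟨fun h hh => ?_, ?_⟩
        · have h3 := congrArg (fun x => g⁻¹ * x * g⁻¹) (h1 h hh)
          simpa [mul_assoc] using h3.symm
        · rw [hcinv]; exact Submodule.neg_mem _ h2 }
  refine ⟨S, fun g hg y => ?_, fun g hg y e he ξ => hL.triv g (hcen g hg.1) y e he ξ,
    fun y₀ e b γ t hN => ?_⟩
  · rw [hFe, (hrange _).1 hg.2, add_zero]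
  let D : LeafDat q (q + r) 0 H :=
    { b₀ := b (e (p y₀))
      γ := γ
      t := t
      N := fun _ => N
      γan := hN.nf.γan
      imm := hN.nf.imm
      tan := hN.tan
      Nan := analyticAt_const
      inj := hL.Ninj }
  obtain ⟨r₀, hr₀, hfin⟩ := hlf n q r 0 (q + r) m X w hw E Γ p hp hFol F c K hF hFe hK hG hreg W H
    π Θ M₀ hM₀ hTh hne hcen v U N 𝒢 hL D (fun _ => rfl) S (fun g => Iff.rfl)
  -- `v ≠ 0` near `y₀`
  have hNZ : ∀ᶠ y in 𝓝 y₀, NZ p v y := by
    choose ξ hξ using fun l : Fin (q + r) => hN.nf.bsurj (Pi.single l 1)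
    have h2 : (Matrix.of fun i j => fderiv ℂ b (e (p y₀)) (ξ j) i) = 1 := by
      ext i' j'
      rw [Matrix.of_apply, hξ, Matrix.one_apply, Pi.single_apply]
    have h3 := hN.nf.nf.self_of_nhds ξ
    rw [h2, Matrix.det_one, one_pow, one_smul] at h3
    obtain ⟨f, hf1, hf2⟩ := hL.form.hol y₀ e hN.nf.mem
    have h4 : v y₀ e ξ = f (e (p y₀), ξ) := hf2.self_of_nhds ξ
    have h5 : f (e (p y₀), ξ) ≠ 0 := by
      rw [← h4, h3]; exact hN.nf.imm.1
    have h6 : ContinuousAt (fun z => f (z, ξ)) (e (p y₀)) := by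
      have h7 : ContinuousAt (fun z : Cm n => ((z, ξ) : Cm n × (Fin (q + r) → Cm n)))
          (e (p y₀)) := (continuous_id.prodMk continuous_const).continuousAt
      exact ContinuousAt.comp (g := f) (hf1 ξ).continuousAt h7
    have h7 := h6.eventually_ne h5
    rw [← ev_iff hp.cov hN.nf.mem] at h7
    filter_upwards [h7, hf2, at_ev hp.cov hN.nf.mem] with y h8 h9 h10
    exact ⟨e, h10, ξ, by rw [h9 ξ]; exact h8⟩
  obtain ⟨K₀, hK₀, hK₀c, hK₀s⟩ := exists_compact_nhds (n := n) hp.cov hNZ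
  refine ⟨r₀, hr₀, K₀, hK₀, (hfin K₀ hK₀c hK₀s).subset ?_⟩
  rintro a ⟨g, hg, y, hy, x, hx, e', β, h1, h2, h3, h4⟩
  refine ⟨g, hg, y, hy, x, hx, e', β, h1, h2, h3, ?_⟩
  filter_upwards [h4] with y' hy'
  refine ⟨hy'.1, ?_⟩
  have : F y' - D.t (β (e' (p y'))) = 0 := by rw [hy'.2]; exact sub_self _
  rw [this]
  exact Submodule.zero_mem _

end Vale.Agent.P284.H378
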