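import Vale.Agent.P284.H378.LF
import Vale.Agent.P284.H378.COf
import Vale.Agent.P284.H378.LFin
import Vale.Agent.P284.H212.LF
import Vale.Agent.P284.H885.Ker3
import Vale.Agent.P284.H221.GFS
import Vale.Agent.P284.H335.CStkFin
import Vale.Agent.P284.H573.DK.Fin
import Vale.Agent.P284.H885.DK5

/-!
# P284 (helper378), module [C] and LF, unconditional
-/

noncomputable section

namespace Vale.Agent.P284.H378

theorem dk2Stmt : DK2Stmt := Vale.Agent.P284.H885.DK.dk2

/-- **LF**: on a compact manifold the sheets are finite in number, modulo the stabiliser. -/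
theorem lfStmt : LFStmt :=
  lf_of Vale.Agent.P284.H212.niStmt dk2Stmt Vale.Agent.P284.H885.Ker.kerStmt
    Vale.Agent.P284.H221.gfStmt

/-- **[C]**, unconditional. -/
theorem cStmt : CStmt := c_of Vale.Agent.P284.H335.cstkStmt lfStmt

end Vale.Agent.P284.H378
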