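import Vale.Agent.P284.H378.SlideAt
import Vale.Agent.P284.H212.Cont
import Mathlib.GroupTheory.Finiteness

/-!
# P284 (helper378), module C: local finiteness
-/

open scoped Manifold ContDiff Topology InnerProductSpace ComplexConjugate
open Filter Set Metric

noncomputable section

set_option linter.unusedSectionVars false

namespace Vale.Agent.P284.H378

open Vale.Agent.P272.K Vale.Agent.P284.H894 Vale.Agent.P284.H894.G Vale.Agent.P284.H894.V
  Vale.Agent.P284.H894.W Vale.Agent.P284.H573 Vale.Agent.P284.H213.Grp Vale.Agent.P284.H395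
  Vale.Agent.P284.H619 Vale.Agent.P284.H625

theorem firstCountable_E {n : ℕ} {X E : Type} [TopologicalSpace X] [ChartedSpace (Cm n) X]
    [TopologicalSpace E] {p : E → X} (hp : IsCoveringMap p) : FirstCountableTopology E := by
  refine ⟨fun y => ?_⟩
  obtain ⟨ψ, hy, hψ⟩ := hp.isLocalHomeomorph y
  set χ := ψ.trans (chartAt (Cm n) (p y)) with hχ
  have hys : y ∈ χ.source := by
    rw [hχ, OpenPartialHomeomorph.trans_source]
    refine ⟨hy, ?_⟩
    rw [mem_preimage, ← hψ]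
    exact mem_chart_source _ _
  rw [χ.nhds_eq_comap_inf_principal hys]
  infer_instance

section
variable {n q r k s m : ℕ} {X E Γ W H : Type} [TopologicalSpace X] [ChartedSpace (Cm n) X]
  [TopologicalSpace E] [Group Γ] [MulAction Γ E]
  [NormedAddCommGroup W] [InnerProductSpace ℂ W] [CompleteSpace W] [NormedAddCommGroup H]
  [InnerProductSpace ℂ H] {p : E → X} {F : E → Cm q}
  {v : E → Chart n X → (Fin (q + r) → Cm n) → H}
  {U : Γ → (H →ₗᵢ[ℂ] H)} {π : Γ →* (W ≃ₗᵢ[ℂ] W)} {Θ : E → Chart n X → (Cm n →L[ℂ] W)}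
  {N : Cm k →L[ℂ] Cm q} {z : E} {e : Chart n X} {b : Cm n → Cm (q + r)}
  {F0 : Cm (q + r) → W} {β : Cm (q + r) → Cm s} {γ : Cm s → H} {τ : Cm s → Cm q}
  {𝒢 : Set E}

theorem Thin.nonempty [Nonempty E] (hp : IsCoveringMap p) (h : Thin n p 𝒢) : 𝒢.Nonempty := by
  obtain ⟨y⟩ := ‹Nonempty E›
  have he : At (chartAt (Cm n) (p y) : Chart n X) (p y) :=
    ⟨chart_mem_atlas _ _, mem_chart_source _ _⟩
  obtain ⟨j, -, h2, h3⟩ := h.thin y _ he
  rw [← map_ep hp he] at h2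
  have h2' : ∃ᶠ y' in 𝓝 y, j ((chartAt (Cm n) (p y) : Chart n X) (p y')) ≠ 0 := h2
  obtain ⟨y', h4, h5⟩ := (h2'.and_eventually h3).exists
  exact ⟨y', h5 h4⟩

/-- `F` is open at a good point -/
theorem LC.map_nhds (hp : IsCoveringMap p) (hL : LC p F m v U π Θ N z e b F0 β γ τ) :
    map F (𝓝 z) = 𝓝 (F z) := by
  have h1 : map F (𝓝 z) = map (fun y => tq (b (e (p y)))) (𝓝 z) := map_congr hL.t_eq
  have h2 : HasStrictFDerivAt (fun x => tq (b x)) (tqc q r ∘L fderiv ℂ b (e (p z)))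
      (e (p z)) := (tqc q r).hasStrictFDerivAt.comp _ hL.ban.hasStrictFDerivAt
  have h3 : Function.Surjective (tqc q r ∘L fderiv ℂ b (e (p z))) := by
    intro t
    obtain ⟨ξ, hξ⟩ := hL.bsurj (ins t 0)
    exact ⟨ξ, by rw [ContinuousLinearMap.comp_apply, hξ, tqc_apply, tq_ins]⟩
  have h4 := h2.map_nhds_eq_of_surj (LinearMap.range_eq_top.2 h3)
  rw [h1, hL.t_eq.self_of_nhds, ← h4, ← map_ep hp hL.mem, map_map]
  rfl

end

theorem lf_of (hNI : NIStmt) (hDK : DK2Stmt) (hKer : KerStmt) (hGF : GFStmt) : LFStmt := by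
  intro n q r k s m X _ _ _ _ _ _ w hw E Γ _ _ _ _ p hp hFol F c K hF hFe hK hG hreg W H _ _ _ _
    _ _ π Θ M₀ hM₀ hTh hne hcen v U N 𝒢 hL D hDN S hS
  obtain ⟨r₀, hr₀, hni⟩ := hNI n q r k s m X E Γ p hp w F c hF hFe W H π Θ v U N 𝒢 hL D hDN
  refine ⟨r₀, hr₀, fun K₀ hK₀ hNZ => ?_⟩
  by_contra hinf
  have hinf' := Set.Infinite.natEmbedding _ hinf
  have : FirstCountableTopology E := firstCountable_E (n := n) hp.cov
  choose g hg y hy b hb hSh using fun i => (hinf' i).2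
  obtain ⟨y₀, hy₀, θ, hθ, hyθ⟩ := hK₀.tendsto_subseq hy
  obtain ⟨σ, hσ, hmain⟩ := hni (g ∘ θ) (y ∘ θ) y₀ (b ∘ θ) hyθ (hNZ _ hy₀) (fun i => hb _)
    (fun i => hSh _)
  set h : ℕ → ℕ → Γ := fun i j => g (θ (σ i)) * (g (θ (σ j)))⁻¹ with hh
  obtain ⟨B, hB⟩ := hF
  -- the generic point
  obtain ⟨T, hT1, hT2, hT3⟩ := hG
  have hTm : IsMeagre T := IsNowhereDense.isMeagre (by
    rw [IsNowhereDense, hT1.closure_eq, hT2])
  obtain ⟨Mk, hMk, hker⟩ := hKer n q X E Γ p hp hFol w F c K ⟨B, hB⟩ hFe hK ⟨T, hT1, hT2, hT3⟩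
    W π Θ M₀ hM₀ hTh hne
  obtain ⟨Mg, hMg, hgf⟩ := hGF n q X E Γ p hp w F c ⟨B, hB⟩ hFe hK.lat.disc 𝒢 hL.good hL.inv
  have hbad : IsMeagre (T ∪ M₀ ∪ (Mk ∪ Mg)) := (hTm.union hM₀).union (hMk.union hMg)
  obtain ⟨z₁, hz₁⟩ := hL.good.nonempty hp.cov
  obtain ⟨e₁, b₁, F₁, β₁, γ₁, τ₁, hL₁⟩ := hL.chart z₁ hz₁
  have himg : F '' 𝒢 ∈ 𝓝 (F z₁) := by
    rw [← hL₁.map_nhds hp.cov]
    exact image_mem_map (hL.good.isOpen.mem_nhds hz₁)
  obtain ⟨t₀, ht₀, ht₀'⟩ := (dense_of_mem_residual hbad).inter_nhds_nonempty himg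
  obtain ⟨z₀, hz₀, hFz₀⟩ := ht₀'
  have htT : t₀ ∉ T := fun h' => ht₀ (Or.inl (Or.inl h'))
  have htM : t₀ ∉ M₀ := fun h' => ht₀ (Or.inl (Or.inr h'))
  have htk : t₀ ∉ Mk := fun h' => ht₀ (Or.inr (Or.inl h'))
  have htg : t₀ ∉ Mg := fun h' => ht₀ (Or.inr (Or.inr h'))
  obtain ⟨hconn, hregt⟩ := hT3 t₀ htT
  obtain ⟨u, hV, hVE⟩ := hTh.pot t₀ htM
  have hthin := hgf t₀ htg hregt
  have hcadd := hK.lat.add
  have hc1 : c 1 = 0 := by
    have := hcadd 1 1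
    rw [mul_one] at this
    simpa using this
  have hcinv : ∀ g, c g⁻¹ = - c g := by
    intro g
    have := hcadd g g⁻¹
    rw [mul_inv_cancel, hc1] at this
    exact (neg_eq_of_add_eq_zero_right this.symm).symm
  -- eventually the elements commute with every element of `K`
  have hcomm : ∀ κ ∈ K, ∃ j₀, ∀ i ≥ j₀, ∀ j ≥ j₀, h i j * κ = κ * h i j := by
    intro κ hκ
    by_contra hcon
    push Not at hcon
    choose i hi j hj hne' using hcon
    set hs : ℕ → Γ := fun l => h (i l) (j l) with hhs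
    have hcκ : c κ = 0 := hK.sub κ hκ
    have hev : ∀ (P : ℕ → ℕ → Prop), (∃ j₀, ∀ i ≥ j₀, ∀ j ≥ j₀, P i j) →
        ∀ᶠ l in atTop, P (i l) (j l) := by
      rintro P ⟨j₀, hj₀⟩
      filter_upwards [eventually_ge_atTop j₀] with l hl
      exact hj₀ _ (hl.trans (hi l)) _ (hl.trans (hj l))
    have hDK' := hDK n q X E Γ p hp hFol w F c K ⟨B, hB⟩ hFe hK t₀ hconn hregt W π Θ u hV hVE 𝒢
      hL.good.isOpen hL.inv hthin r (fun l => (π ((hs l)⁻¹ * (κ * hs l * κ⁻¹))).toLinearIsometry)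
      (by
        intro z hz _
        obtain ⟨e', b', F', β', γ', τ', hL'⟩ := hL.chart z hz
        obtain ⟨ρ₁, hρ₁, h1⟩ := hmain z hz e' b' F' β' γ' τ' hL' 1 hc1
        obtain ⟨ρ₂, hρ₂, h2⟩ := hmain z hz e' b' F' β' γ' τ' hL' κ hcκ
        refine slideAt_of hp.cov hL' hL.dim hL.Ninj (c := c) (h := hs)
          (h' := fun l => κ * hs l * κ⁻¹) (fun l => ?_) hρ₁ hρ₂ (fun ε hε => ?_) (fun ε hε => ?_)
        · rw [hcadd, hcadd, hcinv, hcκ]; simp
        · have := hev _ (h1 ε hε)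
          filter_upwards [this] with l hl
          simpa using hl
        · exact hev _ (h2 ε hε))
    obtain ⟨l, hl⟩ := hDK'.exists
    have h1 : (hs l)⁻¹ * (κ * hs l * κ⁻¹) ∈ K := by
      have h2 : (hs l)⁻¹ * κ * ((hs l)⁻¹)⁻¹ ∈ K := hK.normal.conj_mem κ hκ _
      rw [inv_inv] at h2
      have h3 := K.mul_mem h2 (K.inv_mem hκ)
      have h4 : (hs l)⁻¹ * (κ * hs l * κ⁻¹) = (hs l)⁻¹ * κ * hs l * κ⁻¹ := by group
      rwa [h4]
    have h2 := hker t₀ htk _ h1 hl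
    apply hne' l
    have h3 : κ * hs l * κ⁻¹ = hs l := by
      have := congrArg (fun x => hs l * x) h2
      simpa using this
    have h4 : κ * hs l = hs l * κ := by
      rw [← h3]
      conv_lhs => rw [h3]
      group
    exact h4.symm
  -- finitely many generators
  obtain ⟨j₀, hj₀⟩ : ∃ j₀, ∀ i ≥ j₀, ∀ j ≥ j₀, ∀ κ ∈ K, h i j * κ = κ * h i j := by
    obtain ⟨SK, hSK⟩ := hK.fg.out
    have h1 : ∀ κ : K, ∃ j₀, ∀ i ≥ j₀, ∀ j ≥ j₀, h i j * κ = κ * h i j := fun κ =>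
      hcomm κ κ.2
    choose J hJ using h1
    refine ⟨SK.sup J, fun i hi j hj => ?_⟩
    have h2 : ∀ κ : K, h i j * κ = κ * h i j := by
      intro κ
      have hκ : κ ∈ Subgroup.closure (SK : Set K) := by rw [hSK]; exact Subgroup.mem_top _
      refine Subgroup.closure_induction (p := fun (κ : K) _ => h i j * κ = κ * h i j)
        ?_ ?_ ?_ ?_ hκ
      · intro x hx
        exact hJ x i ((Finset.le_sup hx).trans hi) j ((Finset.le_sup hx).trans hj)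
      · simp
      · intro x y _ _ h3 h4
        rw [Subgroup.coe_mul, ← mul_assoc, h3, mul_assoc, h4, mul_assoc]
      · intro x _ h3
        rw [Subgroup.coe_inv]
        have : (x : Γ)⁻¹ * (h i j * x) * (x : Γ)⁻¹ = (x : Γ)⁻¹ * (x * h i j) * (x : Γ)⁻¹ := by
          rw [h3]
        simpa [mul_assoc] using this.symm
    intro κ hκ
    exact h2 ⟨κ, hκ⟩
  -- a pair of indices
  obtain ⟨e', b', F', β', γ', τ', hL'⟩ := hL.chart z₀ hz₀
  set x₀ := b' (e' (p z₀)) with hx₀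
  obtain ⟨C, -⟩ := H212.exists_pc hL'.γan hL'.imm one_pos
  obtain ⟨ρ, hρ, h1⟩ := hmain z₀ hz₀ e' b' F' β' γ' τ' hL' 1 hc1
  obtain ⟨j₁, hj₁⟩ := h1 C.r₁ C.r₁_pos
  set j := max j₀ j₁ with hj
  set i := j + 1 with hi
  have hij0 : j₀ ≤ i := by have := le_max_left j₀ j₁; omega
  have hij1 : j₁ ≤ i := by have := le_max_right j₀ j₁; omega
  have hcom := hj₀ i hij0 j (le_max_left _ _)
  obtain ⟨φ, hφ, hφd⟩ := hj₁ i hij1 j (le_max_right _ _)
  have hone : (1 : Γ) * ((g ∘ θ) (σ i) * ((g ∘ θ) (σ j))⁻¹) * 1⁻¹ = h i j := by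
    simp [hh]
  rw [hone] at hφ
  have hπ : π (h i j) = 1 := hcen _ hcom
  -- `U h` fixes `γ b₀`
  have hUγ : U (h i j) (γ' (β' x₀)) = γ' (β' x₀) := by
    choose ξ hξ using fun l : Fin (q + r) => hL'.bsurj (Pi.single l 1)
    have h2 : (Matrix.of fun i j => fderiv ℂ b' (e' (p z₀)) (ξ j) i) = 1 := by
      ext i' j'
      rw [Matrix.of_apply, hξ, Matrix.one_apply, Pi.single_apply]
    have h3 := hL'.v_eq.self_of_nhds ξ
    rw [h2, Matrix.det_one, one_pow, one_smul] at h3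
    have h4 := hL.equi (h i j) z₀ e' hL'.mem ξ
    rw [hL.triv (h i j) hπ z₀ e' hL'.mem ξ, h3] at h4
    exact h4.symm
  have hx₀b : β' x₀ ∈ ball (β' x₀) ρ := mem_ball_self hρ
  obtain ⟨⟨a, ha⟩, hτ⟩ := hφ.2 _ hx₀b
  rw [hUγ] at ha
  have hne0 : γ' (β' x₀) ≠ 0 := hL'.imm.1
  have ha0 : a ≠ 0 := by
    rintro rfl
    rw [zero_smul] at ha
    exact hne0 ha
  have hφb : φ (β' x₀) ∈ ball (β' x₀) C.r₁ := by
    rw [mem_ball, dist_eq_norm]
    exact hφd _ hx₀b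
  have heq : β' x₀ = φ (β' x₀) := C.inj (mem_ball_self C.r₁_pos) hφb ha0 ha
  rw [← heq, sub_self, zero_sub] at hτ
  have hcS : c (h i j) ∈ LinearMap.range (N : Cm k →ₗ[ℂ] Cm q) := by
    have := Submodule.neg_mem _ hτ
    rwa [neg_neg] at this
  have hhS : h i j ∈ S := (hS _).2 ⟨hcom, hcS⟩
  have hcentral := hK.central _ hcom
  have hcoset : (g (θ (σ j)) : Γ ⧸ S) = g (θ (σ i)) := by
    rw [QuotientGroup.eq]
    have h2 : g (θ (σ i)) = h i j * g (θ (σ j)) := by simp [hh]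
    rw [h2, hcentral, inv_mul_cancel_left]
    exact hhS
  rw [hg, hg] at hcoset
  have h2 := hinf'.injective (Subtype.ext hcoset)
  have h3 := hσ.injective (hθ.injective h2)
  omega

end Vale.Agent.P284.H378
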