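import Vale.Agent.P284.H625.NS.Spec2
import Mathlib.Analysis.Calculus.InverseFunctionTheorem.FDeriv

/-!
# P284 (helper378): the isotriviality package for `k = 0`
-/

open scoped Topology
open Filter

noncomputable section

namespace Vale.Agent.P284.H378

open Vale.Agent.P272.K Vale.Agent.P284.H625

/-- `s = q + r` analytic functions with independent differentials give the package with `k = 0`. -/
theorem isoPkgC_zero {q r s : ℕ} (hs : s = q + r) {W : Type} [NormedAddCommGroup W]
    [InnerProductSpace ℂ W] {x₀ : Cm (q + r)} {𝓕 : Set (Cm (q + r) → ℂ)} {F : Cm (q + r) → W}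
    {f : Fin s → Cm (q + r) → ℂ} (hf : ∀ i, AnalyticAt ℂ (f i) x₀)
    (hsurj : ∀ y : Fin s → ℂ, ∃ ξ : Cm (q + r), ∀ i, fderiv ℂ (f i) x₀ ξ = y i) :
    IsoPkgC q r 0 s W x₀ 𝓕 F f := by
  subst hs
  set fh : Cm (q + r) → Cm (q + r) := fun x i => f i x with hfh
  have hfa : AnalyticAt ℂ fh x₀ := by
    rw [analyticAt_pi_iff]
    exact hf
  have hd : HasStrictFDerivAt fh (fderiv ℂ fh x₀) x₀ := hfa.hasStrictFDerivAt
  have hfd : ∀ x, (∀ i, DifferentiableAt ℂ (f i) x) → ∀ ξ i,
      fderiv ℂ fh x ξ i = fderiv ℂ (f i) x ξ := by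
    intro x hx ξ i
    have h1 : HasFDerivAt fh (ContinuousLinearMap.pi fun i => fderiv ℂ (f i) x) x := by
      rw [hasFDerivAt_pi]
      exact fun i => (hx i).hasFDerivAt
    rw [h1.fderiv]
    rfl
  have hsur : Function.Surjective (fderiv ℂ fh x₀) := by
    intro y
    obtain ⟨ξ, hξ⟩ := hsurj y
    refine ⟨ξ, ?_⟩
    funext i
    rw [hfd x₀ (fun i => (hf i).differentiableAt), hξ i]
  have hinj : Function.Injective (fderiv ℂ fh x₀) :=
    (LinearMap.injective_iff_surjective (f := (fderiv ℂ fh x₀ : Cm (q + r) →ₗ[ℂ] Cm (q + r)))).2 hsur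
  set L : Cm (q + r) ≃L[ℂ] Cm (q + r) := ContinuousLinearEquiv.ofBijective (fderiv ℂ fh x₀)
    (LinearMap.ker_eq_bot.2 hinj) (LinearMap.range_eq_top.2 hsur) with hL
  have hLc : (L : Cm (q + r) →L[ℂ] Cm (q + r)) = fderiv ℂ fh x₀ :=
    ContinuousLinearEquiv.coe_ofBijective _ _ _
  have hd' : HasStrictFDerivAt fh (L : Cm (q + r) →L[ℂ] Cm (q + r)) x₀ := by rwa [hLc]
  -- invertible near `x₀`
  have hinv : ∀ᶠ x in 𝓝 x₀, Function.Injective (fderiv ℂ fh x) := by
    have h1 : ContinuousAt (fderiv ℂ fh) x₀ := hfa.fderiv.continuousAt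
    have h2 : ∀ᶠ T : Cm (q + r) →L[ℂ] Cm (q + r) in 𝓝 (fderiv ℂ fh x₀), Function.Injective T := by
      rw [← hLc]
      filter_upwards [ContinuousLinearEquiv.nhds L] with T hT
      obtain ⟨T', rfl⟩ := hT
      exact T'.injective
    exact h1.eventually h2
  have hdiff : ∀ᶠ x in 𝓝 x₀, ∀ i, DifferentiableAt ℂ (f i) x := by
    rw [Filter.eventually_all]
    intro i
    filter_upwards [(hf i).eventually_analyticAt] with x hx
    exact hx.differentiableAt
  refine ⟨0, Prod.fst, 0, Function.injective_of_subsingleton _, analyticAt_fst, analyticAt_const,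
    Eventually.of_forall fun x => rfl, Eventually.of_forall fun p => ?_,
    Eventually.of_forall fun p => ?_, fun g _ => Eventually.of_forall fun p => rfl, ?_, ?_⟩
  · simp
  · simp
  · -- local injectivity
    set P := hd'.toOpenPartialHomeomorph fh with hP
    have hPc : ∀ x, P x = fh x := fun x => rfl
    have h1 : P.source ∈ 𝓝 x₀ := P.open_source.mem_nhds hd'.mem_toOpenPartialHomeomorph_source
    filter_upwards [prod_mem_nhds h1 h1] with p hp hpe
    have h2 : p.1 = p.2 := by
      apply P.injOn hp.1 hp.2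
      rw [hPc, hPc]
      funext i
      exact hpe i
    refine ⟨0, h2.symm, ?_⟩
    rw [h2]; simp
  · filter_upwards [hinv, hdiff] with x hx hx' ξ hξ
    have : ξ = 0 := by
      apply hx
      rw [map_zero]
      funext i
      rw [hfd x hx', hξ i]
      rfl
    refine ⟨0, ?_⟩
    rw [this]
    simp
    rfl

end Vale.Agent.P284.H378
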