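import Vale.Agent.P284.H378.CS
import Vale.Agent.P299.H720.Montel
import Mathlib.Topology.MetricSpace.Contracting
import Mathlib.Analysis.Calculus.InverseFunctionTheorem.Analytic

/-!
# P284 (helper378), module C: near identity maps, local part
-/

open scoped Manifold ContDiff Topology InnerProductSpace ComplexConjugate
open Filter Set Metric

noncomputable section

namespace Vale.Agent.P284.H378

open Vale.Agent.P272.K Vale.Agent.P299.H720

/-- near identity maps are onto a smaller ball -/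
theorem onto_near {V : Type*} [NormedAddCommGroup V] [NormedSpace ℂ V] [CompleteSpace V]
    {θ : V → V} {a : V} {ρ δ : ℝ} (hρ : 0 < ρ)
    (hd : DifferentiableOn ℂ θ (ball a ρ)) (hδ : ∀ x ∈ ball a ρ, ‖θ x - x‖ ≤ δ) (hs : δ ≤ ρ / 32)
    {y : V} (hy : y ∈ ball a (ρ / 8)) : ∃ x ∈ ball a (ρ / 4), θ x = y ∧ ‖x - y‖ ≤ δ := by
  have hδ0 : 0 ≤ δ := (norm_nonneg _).trans (hδ a (mem_ball_self hρ))
  set f : V → V := fun x => θ x - x with hf
  have hfd : DifferentiableOn ℂ f (ball a ρ) := hd.sub differentiableOn_id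
  have hlip : ∀ x ∈ ball a (ρ / 4), ∀ z ∈ ball a (ρ / 4), dist (f x) (f z) ≤ 1 / 8 * dist x z := by
    intro x hx z hz
    refine (lip_of_bdd hρ hfd (C := δ) hδ hz hx).trans ?_
    have : 4 * δ / ρ ≤ 1 / 8 := by
      rw [div_le_iff₀ hρ]; linarith
    exact mul_le_mul_of_nonneg_right this dist_nonneg
  have hsub : closedBall y δ ⊆ ball a (ρ / 4) := by
    intro x hx
    rw [mem_closedBall] at hx
    rw [mem_ball] at *
    have := dist_triangle x y a
    linarith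
  have hsub' : ball a (ρ / 4) ⊆ ball a ρ := ball_subset_ball (by linarith)
  set T : V → V := fun x => y - f x with hT
  have hmaps : MapsTo T (closedBall y δ) (closedBall y δ) := by
    intro x hx
    rw [mem_closedBall, dist_eq_norm]
    have : T x - y = -(θ x - x) := by simp only [hT, hf]; abel
    rw [this, norm_neg]
    exact hδ x (hsub' (hsub hx))
  have hcon : ContractingWith (1 / 8) (hmaps.restrict T (closedBall y δ) (closedBall y δ)) := by
    refine ⟨by norm_num, LipschitzWith.of_dist_le_mul fun x z => ?_⟩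
    have h1 : dist (T x) (T z) = dist (f x) (f z) := by
      simp only [hT, dist_eq_norm]
      rw [← norm_neg]; congr 1; abel
    have h2 := hlip x (hsub x.2) z (hsub z.2)
    rw [Subtype.dist_eq, MapsTo.val_restrict_apply, MapsTo.val_restrict_apply, h1,
      Subtype.dist_eq x z]
    simpa using h2
  obtain ⟨x, hx, hfix, -⟩ := hcon.exists_fixedPoint' isClosed_closedBall.isComplete hmaps
    (mem_closedBall_self hδ0) (edist_ne_top _ _)
  refine ⟨x, hsub hx, ?_, ?_⟩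
  · have h1 : y - (θ x - x) = x := hfix
    have : θ x = y - (y - (θ x - x)) + x := by abel
    rw [this, h1]; abel
  · rw [← dist_eq_norm]; exact hx

open Vale.Agent.P284.H625

section
variable {q r k s : ℕ} {W H : Type} [NormedAddCommGroup W] [InnerProductSpace ℂ W]
  [NormedAddCommGroup H] [InnerProductSpace ℂ H] {Γ : Type} [Group Γ]

/-- `tq` as a continuous linear map -/
def tqc (q r : ℕ) : Cm (q + r) →L[ℂ] Cm q :=
  (LinearMap.funLeft ℂ ℂ (Fin.castAdd r : Fin q → Fin (q + r))).toContinuousLinearMap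

theorem tqc_apply {q r : ℕ} (x : Cm (q + r)) : tqc q r x = tq x := rfl

/-- The coordinates `(β, P tq)` near `x₀`. -/
theorem exists_coord (hdim : q + r = s + k) {N : Cm k →L[ℂ] Cm q} {P : Cm q →L[ℂ] Cm k}
    (hP : ∀ x, P (N x) = x) {x₀ : Cm (q + r)} {β : Cm (q + r) → Cm s} {τ : Cm s → Cm q}
    (hβ : AnalyticAt ℂ β x₀) (htr : ∀ ζ : Cm (q + r), tq ζ = 0 → fderiv ℂ β x₀ ζ = 0 → ζ = 0)
    (hτ : AnalyticAt ℂ τ (β x₀))
    (hleaf : ∀ᶠ x in 𝓝 x₀, tq x - τ (β x) ∈ LinearMap.range (N : Cm k →ₗ[ℂ] Cm q)) :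
    ∃ I : Cm s × Cm k → Cm (q + r), AnalyticAt ℂ I (β x₀, P (tq x₀)) ∧
      (∀ᶠ x in 𝓝 x₀, I (β x, P (tq x)) = x) ∧
      ∀ᶠ z in 𝓝 (β x₀, P (tq x₀)), β (I z) = z.1 ∧ P (tq (I z)) = z.2 := by
  set L : Cm (q + r) →L[ℂ] Cm s × Cm k := (fderiv ℂ β x₀).prod (P ∘L tqc q r) with hL
  have hNP : ∀ y ∈ LinearMap.range (N : Cm k →ₗ[ℂ] Cm q), N (P y) = y := by
    rintro _ ⟨x, rfl⟩
    simp only [ContinuousLinearMap.coe_coe, hP]
  have hinj : Function.Injective L := by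
    rw [injective_iff_map_eq_zero]
    intro ζ hζ
    have h1 : fderiv ℂ β x₀ ζ = 0 := (Prod.ext_iff.1 hζ).1
    have h2 : P (tq ζ) = 0 := (Prod.ext_iff.1 hζ).2
    refine htr ζ ?_ h1
    -- `tq ζ ∈ range N`
    set A : Cm q →L[ℂ] Cm q := ContinuousLinearMap.id ℂ _ - N ∘L P with hA
    have h3 : (fun x => A (tqc q r x) - A (τ (β x))) =ᶠ[𝓝 x₀] fun _ => 0 := by
      filter_upwards [hleaf] with x hx
      rw [← map_sub, hA]
      simp only [sub_apply, ContinuousLinearMap.id_apply, ContinuousLinearMap.comp_apply]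
      rw [tqc_apply, hNP _ hx, sub_self]
    have h4 : HasFDerivAt (fun x => A (tqc q r x) - A (τ (β x)))
        (A ∘L tqc q r - A ∘L (fderiv ℂ τ (β x₀) ∘L fderiv ℂ β x₀)) x₀ :=
      (A.hasFDerivAt.comp x₀ (tqc q r).hasFDerivAt).sub (A.hasFDerivAt.comp x₀
        (hτ.differentiableAt.hasFDerivAt.comp x₀ hβ.differentiableAt.hasFDerivAt))
    have h5 := h4.unique ((hasFDerivAt_const (0 : Cm q) x₀).congr_of_eventuallyEq h3)
    have h6 := DFunLike.congr_fun h5 ζ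
    simp only [sub_apply, ContinuousLinearMap.comp_apply, h1, map_zero, sub_zero,
      zero_apply, tqc_apply, hA, ContinuousLinearMap.id_apply, h2] at h6
    exact h6
  have hfin : Module.finrank ℂ (Cm (q + r)) = Module.finrank ℂ (Cm s × Cm k) := by
    simp [hdim]
  set L' : Cm (q + r) ≃L[ℂ] Cm s × Cm k :=
    (LinearEquiv.ofInjectiveOfFinrankEq (L : Cm (q + r) →ₗ[ℂ] Cm s × Cm k) hinj
      hfin).toContinuousLinearEquiv with hL'
  have hLL : (L' : Cm (q + r) →L[ℂ] Cm s × Cm k) = L := by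
    ext x <;> rfl
  set G : Cm (q + r) → Cm s × Cm k := fun x => (β x, P (tqc q r x)) with hG
  have hGan : AnalyticAt ℂ G x₀ := hβ.prod (((P ∘L tqc q r).analyticAt x₀))
  have hGd : HasFDerivAt G L x₀ :=
    hβ.differentiableAt.hasFDerivAt.prodMk ((P ∘L tqc q r).hasFDerivAt)
  have hGs : HasStrictFDerivAt G (L' : Cm (q + r) →L[ℂ] Cm s × Cm k) x₀ := by
    have := hGan.hasStrictFDerivAt
    rwa [hGd.fderiv, ← hLL] at this
  set Φ := hGs.toOpenPartialHomeomorph G with hΦ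
  have hΦc : ∀ z, Φ z = G z := fun z => rfl
  have hzs : x₀ ∈ Φ.source := hGs.mem_toOpenPartialHomeomorph_source
  have hzt : G x₀ ∈ Φ.target := Φ.map_source hzs
  refine ⟨Φ.symm, ?_, ?_, ?_⟩
  · refine Φ.analyticAt_symm' (i := L') hzs hGan ?_
    have := hGd.fderiv
    rw [← hLL] at this
    exact this
  · filter_upwards [Φ.open_source.mem_nhds hzs] with x hx
    exact Φ.left_inv hx
  · filter_upwards [Φ.open_target.mem_nhds hzt] with z hz
    have := Φ.right_inv hz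
    exact Prod.ext_iff.1 this

/-- A near identity sheet map lifts to a near identity map of the slice which preserves `Θ`. -/
theorem exists_psi [CompleteSpace W] (hdim : q + r = s + k) {N : Cm k →L[ℂ] Cm q}
    {P : Cm q →L[ℂ] Cm k}
    (hP : ∀ x, P (N x) = x) {x₀ : Cm (q + r)} {β : Cm (q + r) → Cm s} {τ : Cm s → Cm q}
    (hβ : AnalyticAt ℂ β x₀) (htr : ∀ ζ : Cm (q + r), tq ζ = 0 → fderiv ℂ β x₀ ζ = 0 → ζ = 0)
    (hτ : AnalyticAt ℂ τ (β x₀))
    (hleaf : ∀ᶠ x in 𝓝 x₀, tq x - τ (β x) ∈ LinearMap.range (N : Cm k →ₗ[ℂ] Cm q))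
    {U : Γ → (H →ₗᵢ[ℂ] H)} {π : Γ →* (W ≃ₗᵢ[ℂ] W)} {c : Γ → Cm q} {γ : Cm s → H}
    {F0 : Cm (q + r) → W} (hF0 : AnalyticAt ℂ F0 x₀)
    (hsheet : ∃ ρ > 0, ∀ (g : Γ), ∀ x₁ ∈ ball x₀ ρ, ∀ ψ : Cm (q + r) → Cm (q + r),
      AnalyticAt ℂ ψ x₁ → ψ x₁ ∈ ball x₀ ρ →
      (∃ c : Cm q, ∀ᶠ x in 𝓝 x₁, tq (ψ x) = tq x + c) →
      (∀ᶠ x in 𝓝 x₁, ∃ a : ℂ, U g (γ (β x)) = a • γ (β (ψ x))) →
      ∀ᶠ x in 𝓝 x₁, ∀ ζ : Cm (q + r), tq ζ = 0 →
        fderiv ℂ (fun x => F0 (ψ x)) x ζ = π g (fderiv ℂ F0 x ζ))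
    {ρ : ℝ} (hρ : 0 < ρ) :
    ∃ ρ' > 0, ∀ ε > 0, ∃ δ > 0, ∀ (g : Γ) (φ : Cm s → Cm s), NI U c N γ τ (β x₀) ρ g φ →
      (∀ x ∈ ball (β x₀) ρ, ‖φ x - x‖ < δ) →
      ∃ (ψ : Cm (q + r) → Cm (q + r)) (C : W), DifferentiableOn ℂ ψ (ball x₀ ρ') ∧
        (∀ x ∈ ball x₀ ρ', ‖ψ x - x‖ < ε) ∧
        (∀ x ∈ ball x₀ ρ', tq (ψ x) = tq x + (c g - N (P (c g)))) ∧
        ∀ x ∈ ball x₀ ρ', tq x = tq x₀ → F0 (ψ x) = π g (F0 x) + C := by
  obtain ⟨I, hI, hI1, hI2⟩ := exists_coord hdim hP hβ htr hτ hleaf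
  obtain ⟨ρs, hρs, hsheet⟩ := hsheet
  have hNP : ∀ y ∈ LinearMap.range (N : Cm k →ₗ[ℂ] Cm q), N (P y) = y := by
    rintro _ ⟨x, rfl⟩
    simp only [ContinuousLinearMap.coe_coe, hP]
  set z₀ : Cm s × Cm k := (β x₀, P (tq x₀)) with hz₀
  have hI0 : I z₀ = x₀ := hI1.self_of_nhds
  have hIc : Tendsto I (𝓝 z₀) (𝓝 x₀) := by
    have := hI.continuousAt.tendsto
    rwa [hI0] at this
  obtain ⟨KI, sI, hsI, hlip⟩ := hI.hasStrictFDerivAt.exists_lipschitzOnWith
  have e1 : ∀ᶠ z in 𝓝 z₀, AnalyticAt ℂ I z ∧ (β (I z) = z.1 ∧ P (tq (I z)) = z.2) ∧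
      tq (I z) - τ (β (I z)) ∈ LinearMap.range (N : Cm k →ₗ[ℂ] Cm q) ∧
      AnalyticAt ℂ F0 (I z) ∧ I z ∈ ball x₀ ρs ∧ z ∈ sI :=
    hI.eventually_analyticAt.and (hI2.and ((hIc.eventually hleaf).and
      ((hIc.eventually hF0.eventually_analyticAt).and
        ((hIc.eventually (ball_mem_nhds x₀ hρs)).and hsI))))
  obtain ⟨R1, hR1, he1⟩ := Metric.eventually_nhds_iff_ball.1 e1
  have hβc : Tendsto β (𝓝 x₀) (𝓝 (β x₀)) := hβ.continuousAt.tendsto
  have htc : Tendsto (fun x : Cm (q + r) => P (tq x)) (𝓝 x₀) (𝓝 (P (tq x₀))) :=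
    (P.continuous.comp (tqc q r).continuous).tendsto x₀
  have e2 : ∀ᶠ x in 𝓝 x₀, β x ∈ ball (β x₀) (min ρ (R1 / 2)) ∧
      P (tq x) ∈ ball (P (tq x₀)) R1 ∧ I (β x, P (tq x)) = x ∧
      tq x - τ (β x) ∈ LinearMap.range (N : Cm k →ₗ[ℂ] Cm q) ∧ AnalyticAt ℂ β x ∧
      AnalyticAt ℂ F0 x ∧ x ∈ ball x₀ ρs :=
    (hβc.eventually (ball_mem_nhds _ (by positivity))).and
      ((htc.eventually (ball_mem_nhds _ hR1)).and (hI1.and (hleaf.and
        (hβ.eventually_analyticAt.and (hF0.eventually_analyticAt.and (ball_mem_nhds _ hρs))))))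
  obtain ⟨R2, hR2, he2⟩ := Metric.eventually_nhds_iff_ball.1 e2
  refine ⟨R2, hR2, fun ε hε => ⟨min (R1 / 2) (ε / (KI + 1)), by positivity,
    fun g φ hφ hφδ => ?_⟩⟩
  set ψ : Cm (q + r) → Cm (q + r) := fun x => I (φ (β x), P (tq x)) with hψ
  have hz : ∀ x ∈ ball x₀ R2, (φ (β x), P (tq x)) ∈ ball z₀ R1 := by
    intro x hx
    obtain ⟨a1, a2, -⟩ := he2 x hx
    rw [← ball_prod_same, mem_prod]
    refine ⟨?_, a2⟩
    have a3 : β x ∈ ball (β x₀) ρ := ball_subset_ball (min_le_left _ _) a1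
    have a4 : β x ∈ ball (β x₀) (R1 / 2) := ball_subset_ball (min_le_right _ _) a1
    have a5 := (hφδ _ a3).trans_le (min_le_left _ _)
    rw [mem_ball] at *
    rw [← dist_eq_norm] at a5
    have := dist_triangle (φ (β x)) (β x) (β x₀)
    linarith
  have hz' : ∀ x ∈ ball x₀ R2, (β x, P (tq x)) ∈ ball z₀ R1 := by
    intro x hx
    obtain ⟨a1, a2, -⟩ := he2 x hx
    rw [← ball_prod_same, mem_prod]
    exact ⟨ball_subset_ball ((min_le_right _ _).trans (by linarith)) a1, a2⟩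
  have hφan : ∀ x ∈ ball (β x₀) ρ, AnalyticAt ℂ φ x := fun x hx =>
    Vale.Agent.P268.analyticAt_of_differentiableOn isOpen_ball hφ.1 hx
  have hψan : ∀ x ∈ ball x₀ R2, AnalyticAt ℂ ψ x := by
    intro x hx
    obtain ⟨a1, a2, a3, a4, a5, -⟩ := he2 x hx
    have b1 : AnalyticAt ℂ (fun x => φ (β x)) x :=
      AnalyticAt.fun_comp (hφan _ (ball_subset_ball (min_le_left _ _) a1)) a5
    have b2 : AnalyticAt ℂ (fun x : Cm (q + r) => P (tq x)) x := (P ∘L tqc q r).analyticAt x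
    exact AnalyticAt.fun_comp (he1 _ (hz x hx)).1 (b1.prod b2)
  have htψ : ∀ x ∈ ball x₀ R2, tq (ψ x) = tq x + (c g - N (P (c g))) := by
    intro x hx
    obtain ⟨a1, a2, a3, a4, a5, -⟩ := he2 x hx
    obtain ⟨b1, ⟨b2, b3⟩, b4, -⟩ := he1 _ (hz x hx)
    have b5 := (hφ.2 _ (ball_subset_ball (min_le_left _ _) a1)).2
    change β (ψ x) = φ (β x) at b2
    change P (tq (ψ x)) = P (tq x) at b3
    change tq (ψ x) - τ (β (ψ x)) ∈ _ at b4
    rw [b2] at b4
    have b6 := Submodule.add_mem _ (Submodule.sub_mem _ b4 a4) b5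
    have b7 : tq (ψ x) - τ (φ (β x)) - (tq x - τ (β x)) + (τ (φ (β x)) - τ (β x) - c g) =
        tq (ψ x) - tq x - c g := by abel
    rw [b7] at b6
    have b10 : P (tq (ψ x) - tq x - c g) = -(P (c g)) := by
      rw [map_sub, map_sub, b3, sub_self, zero_sub]
    have b8 := hNP _ b6
    rw [b10, map_neg] at b8
    have b9 : tq (ψ x) = (tq (ψ x) - tq x - c g) + tq x + c g := by abel
    rw [b9, ← b8]
    abel
  have hfd : ∀ x ∈ ball x₀ R2, ∀ ζ : Cm (q + r), tq ζ = 0 →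
      fderiv ℂ (fun x => F0 (ψ x)) x ζ = π g (fderiv ℂ F0 x ζ) := by
    intro x hx
    obtain ⟨a1, a2, a3, a4, a5, a6, a7⟩ := he2 x hx
    obtain ⟨b1, ⟨b2, b3⟩, b4, b5, b6, -⟩ := he1 _ (hz x hx)
    refine (hsheet g x a7 ψ (hψan x hx) b6 ⟨c g - N (P (c g)), ?_⟩ ?_).self_of_nhds
    · filter_upwards [isOpen_ball.mem_nhds hx] with x' hx'
      exact htψ x' hx'
    · filter_upwards [isOpen_ball.mem_nhds hx] with x' hx'
      obtain ⟨a, ha⟩ := (hφ.2 _ (ball_subset_ball (min_le_left _ _) (he2 x' hx').1)).1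
      refine ⟨a, ?_⟩
      have : β (ψ x') = φ (β x') := (he1 _ (hz x' hx')).2.1.1
      rw [this]
      exact ha
  refine ⟨ψ, F0 (ψ x₀) - π g (F0 x₀), fun x hx => (hψan x hx).differentiableAt.differentiableWithinAt,
    fun x hx => ?_, htψ, fun x hx htx => ?_⟩
  · obtain ⟨a1, a2, a3, -⟩ := he2 x hx
    have b1 := hlip.norm_sub_le (he1 _ (hz x hx)).2.2.2.2.2 (he1 _ (hz' x hx)).2.2.2.2.2
    have b2 := (hφδ _ (ball_subset_ball (min_le_left _ _) a1)).trans_le (min_le_right _ _)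
    have b3 : ‖((φ (β x), P (tq x)) : Cm s × Cm k) - (β x, P (tq x))‖ = ‖φ (β x) - β x‖ := by
      rw [Prod.mk_sub_mk, sub_self, Prod.norm_def]
      simp
    rw [b3, a3] at b1
    refine b1.trans_lt ?_
    calc (KI : ℝ) * ‖φ (β x) - β x‖ ≤ (KI + 1) * ‖φ (β x) - β x‖ := by
          gcongr; linarith
      _ < (KI + 1) * (ε / (KI + 1)) := by gcongr
      _ = ε := by field_simp
  · -- constancy along the segment
    set d := x - x₀ with hd
    have hdv : tq d = 0 := by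
      have : tqc q r d = tqc q r x - tqc q r x₀ := map_sub _ _ _
      rw [tqc_apply, tqc_apply, tqc_apply, htx, sub_self] at this
      exact this
    have hseg : ∀ s ∈ Icc (0 : ℝ) 1, x₀ + s • d ∈ ball x₀ R2 := fun s hs =>
      (convex_ball x₀ R2).add_smul_sub_mem (mem_ball_self hR2) hx hs
    have hder : ∀ s ∈ Icc (0 : ℝ) 1,
        HasDerivAt (fun s : ℝ => F0 (ψ (x₀ + s • d)) - π g (F0 (x₀ + s • d))) 0 s := by
      intro s hs
      have hy := hseg s hs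
      obtain ⟨a1, a2, a3, a4, a5, a6, a7⟩ := he2 _ hy
      have b1 : HasFDerivAt (fun x => F0 (ψ x)) (fderiv ℂ (fun x => F0 (ψ x)) (x₀ + s • d))
          (x₀ + s • d) := by
        have : AnalyticAt ℂ (fun x => F0 (ψ x)) (x₀ + s • d) :=
          AnalyticAt.fun_comp (he1 _ (hz _ hy)).2.2.2.1 (hψan _ hy)
        exact this.differentiableAt.hasFDerivAt
      have b2 : HasFDerivAt (fun x => π g (F0 x))
          (((π g).toContinuousLinearEquiv : W →L[ℂ] W) ∘L fderiv ℂ F0 (x₀ + s • d))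
          (x₀ + s • d) :=
        ((π g).toContinuousLinearEquiv : W →L[ℂ] W).hasFDerivAt.comp _
          a6.differentiableAt.hasFDerivAt
      have b3 := (b1.sub b2).restrictScalars ℝ
      have b4 : HasDerivAt (fun s : ℝ => x₀ + s • d) d s := by
        simpa using ((hasDerivAt_id s).smul_const d).const_add x₀
      have b5 := b3.comp_hasDerivAt s b4
      have b6 : ((fderiv ℂ (fun x => F0 (ψ x)) (x₀ + s • d) -
          ((π g).toContinuousLinearEquiv : W →L[ℂ] W) ∘L fderiv ℂ F0 (x₀ + s • d)).restrictScalars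
          ℝ) d = 0 := by
        rw [ContinuousLinearMap.coe_restrictScalars', sub_apply, hfd _ hy d hdv]
        simp
      rw [b6] at b5
      exact b5
    have hc := constant_of_has_deriv_right_zero
      (f := fun s : ℝ => F0 (ψ (x₀ + s • d)) - π g (F0 (x₀ + s • d))) (a := 0) (b := 1)
      (fun s hs => (hder s hs).continuousAt.continuousWithinAt)
      (fun s hs => (hder s ⟨hs.1, hs.2.le⟩).hasDerivWithinAt)
    have h1 := hc 1 ⟨zero_le_one, le_refl 1⟩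
    simp only [one_smul, zero_smul, add_zero, hd, add_sub_cancel] at h1
    rw [← h1]; abel

end

end Vale.Agent.P284.H378
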