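import Vale.Agent.P284.H378.Slide

/-!
# P284 (helper378), module C: slides on the fixed fibre
-/

open scoped Manifold ContDiff Topology InnerProductSpace ComplexConjugate
open Filter Set Metric

noncomputable section

set_option linter.unusedSectionVars false

namespace Vale.Agent.P284.H378

open Vale.Agent.P272.K Vale.Agent.P284.H894 Vale.Agent.P284.H894.G Vale.Agent.P284.H894.V
  Vale.Agent.P284.H894.W Vale.Agent.P284.H573 Vale.Agent.P284.H213.Grp Vale.Agent.P284.H395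
  Vale.Agent.P284.H619 Vale.Agent.P284.H625

/-- a diagonal choice -/
theorem diag {α : Type*} [Nonempty α] {R : ℕ → ℝ → α → Prop}
    (hmono : ∀ j ε ε' a, ε ≤ ε' → R j ε a → R j ε' a)
    (h : ∀ ε > 0, ∀ᶠ j in atTop, ∃ a, R j ε a) :
    ∃ a : ℕ → α, ∀ ε > 0, ∀ᶠ j in atTop, R j ε (a j) := by
  classical
  set A : ℕ → ℕ → Prop := fun j m => ∃ a, R j (1 / ((m : ℝ) + 1)) a with hA
  set M : ℕ → ℕ := fun j => Nat.findGreatest (A j) j with hM
  have hsel : ∀ j, ∃ a : α, A j (M j) → R j (1 / ((M j : ℝ) + 1)) a := by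
    intro j
    by_cases hj : A j (M j)
    · obtain ⟨a, ha⟩ := hj
      exact ⟨a, fun _ => ha⟩
    · exact ⟨Classical.arbitrary α, fun h => absurd h hj⟩
  choose a ha using hsel
  refine ⟨a, fun ε hε => ?_⟩
  obtain ⟨m, hm⟩ := exists_nat_one_div_lt hε
  filter_upwards [h (1 / ((m : ℝ) + 1)) (by positivity), eventually_ge_atTop m] with j h1 h2
  have h3 : A j (M j) := Nat.findGreatest_spec (P := A j) h2 h1
  have h4 : m ≤ M j := Nat.le_findGreatest h2 h1
  refine hmono _ _ _ _ ?_ (ha j h3)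
  refine le_trans ?_ hm.le
  have : (m : ℝ) ≤ M j := by exact_mod_cast h4
  exact one_div_le_one_div_of_le (by positivity) (by linarith)

section app
variable {q r : ℕ}

/-- the `y`-coordinates -/
def yrc (q r : ℕ) : Cm (q + r) →L[ℂ] Cm r :=
  (LinearMap.funLeft ℂ ℂ (Fin.natAdd q : Fin r → Fin (q + r))).toContinuousLinearMap

theorem yrc_apply (x : Cm (q + r)) (a : Fin r) : yrc q r x a = x (Fin.natAdd q a) := rfl

/-- the point with coordinates `(t, u)` -/
def ins (t : Cm q) (u : Cm r) : Cm (q + r) := Fin.append t u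

@[simp] theorem tq_ins (t : Cm q) (u : Cm r) : tq (ins t u) = t := by
  funext j; simp [tq, ins]

@[simp] theorem yrc_ins (t : Cm q) (u : Cm r) : yrc q r (ins t u) = u := by
  funext j; simp [yrc_apply, ins]

theorem ins_eta (x : Cm (q + r)) : ins (tq x) (yrc q r x) = x := by
  funext j
  refine Fin.addCases (fun i => ?_) (fun i => ?_) j
  · simp [tq, ins]
  · simp [ins, yrc_apply]

theorem ins_sub (t t' : Cm q) (u u' : Cm r) : ins t u - ins t' u' = ins (t - t') (u - u') := by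
  funext j
  refine Fin.addCases (fun i => ?_) (fun i => ?_) j <;> simp [ins]

theorem norm_ins_zero (u : Cm r) : ‖(ins (0 : Cm q) u)‖ ≤ ‖u‖ := by
  rw [pi_norm_le_iff_of_nonneg (norm_nonneg _)]
  intro j
  refine Fin.addCases (fun i => ?_) (fun i => ?_) j
  · simp [ins]
  · simpa [ins] using norm_le_pi_norm u i

theorem norm_yrc_le (x : Cm (q + r)) : ‖yrc q r x‖ ≤ ‖x‖ := by
  rw [pi_norm_le_iff_of_nonneg (norm_nonneg _)]
  intro j
  exact norm_le_pi_norm x _

/-- `u ↦ (0, u)` -/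
def insL (q r : ℕ) : Cm r →L[ℂ] Cm (q + r) :=
  LinearMap.toContinuousLinearMap
    { toFun := fun u => ins 0 u
      map_add' := fun u v => by
        have h := ins_sub (0 : Cm q) 0 (u + v) v
        rw [sub_zero, add_sub_cancel_right] at h
        rw [← h]; abel
      map_smul' := fun a u => by
        funext j
        refine Fin.addCases (fun i => ?_) (fun i => ?_) j <;> simp [ins] }

theorem insL_apply (u : Cm r) : insL q r u = ins 0 u := rfl

theorem ins_eq_add (t : Cm q) (u : Cm r) : ins t u = ins t 0 + insL q r u := by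
  rw [insL_apply]
  have h := ins_sub t 0 u u
  rw [sub_zero, sub_self] at h
  rw [← h]; abel

theorem ins_hasFDerivAt (t : Cm q) (u : Cm r) : HasFDerivAt (ins t) (insL q r) u := by
  have h : HasFDerivAt (fun u => ins t 0 + insL q r u) (insL q r) u :=
    (insL q r).hasFDerivAt.const_add _
  have h2 : ins t = fun u => ins t 0 + insL q r u := funext fun u => ins_eq_add t u
  rw [h2]; exact h

theorem ins_an (t : Cm q) (u : Cm r) : AnalyticAt ℂ (ins t) u := by
  have h : AnalyticAt ℂ (fun u => ins t 0 + insL q r u) u :=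
    analyticAt_const.add ((insL q r).analyticAt u)
  have h2 : ins t = fun u => ins t 0 + insL q r u := funext fun u => ins_eq_add t u
  rw [h2]; exact h

theorem ins_mem {x₀ : Cm (q + r)} {u : Cm r} {ρ : ℝ} (hu : u ∈ ball (yrc q r x₀) ρ) :
    ins (tq x₀) u ∈ ball x₀ ρ := by
  rw [mem_ball, dist_eq_norm] at *
  have h1 : ins (tq x₀) u - x₀ = ins 0 (u - yrc q r x₀) := by
    conv_lhs => rw [← ins_eta x₀, ins_sub, tq_ins, sub_self]
  rw [h1]
  exact (norm_ins_zero _).trans_lt hu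

theorem eq_ins_of_tq {x : Cm (q + r)} {t : Cm q} (h : tq x = t) : ins t (yrc q r x) = x := by
  rw [← h]; exact ins_eta x

end app

section
variable {n q r k s m : ℕ} {X E Γ W H : Type} [TopologicalSpace X] [ChartedSpace (Cm n) X]
  [TopologicalSpace E] [Group Γ] [MulAction Γ E]
  [NormedAddCommGroup W] [InnerProductSpace ℂ W] [CompleteSpace W] [NormedAddCommGroup H]
  [InnerProductSpace ℂ H] {p : E → X} {F : E → Cm q}
  {v : E → Chart n X → (Fin (q + r) → Cm n) → H}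
  {U : Γ → (H →ₗᵢ[ℂ] H)} {π : Γ →* (W ≃ₗᵢ[ℂ] W)} {Θ : E → Chart n X → (Cm n →L[ℂ] W)}
  {N : Cm k →L[ℂ] Cm q} {z : E} {e : Chart n X} {b : Cm n → Cm (q + r)}
  {F0 : Cm (q + r) → W} {β : Cm (q + r) → Cm s} {γ : Cm s → H} {τ : Cm s → Cm q}

/-- the slides of `π (h⁻¹ h')` on the fixed fibre -/
theorem slideAt_of (hp : IsCoveringMap p) (hL : LC p F m v U π Θ N z e b F0 β γ τ)
    (hdim : q + r = s + k) (hN : Function.Injective N) {c : Γ → Cm q} {h h' : ℕ → Γ}
    (hc : ∀ j, c (h' j) = c (h j)) {ρ ρ₂ : ℝ} (hρ : 0 < ρ) (hρ₂ : 0 < ρ₂)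
    (h1 : ∀ ε > 0, ∀ᶠ j in atTop, ∃ φ : Cm s → Cm s, NI U c N γ τ (β (b (e (p z)))) ρ (h j) φ ∧
      ∀ x ∈ ball (β (b (e (p z)))) ρ, ‖φ x - x‖ < ε)
    (h2 : ∀ ε > 0, ∀ᶠ j in atTop, ∃ φ : Cm s → Cm s, NI U c N γ τ (β (b (e (p z)))) ρ₂ (h' j) φ ∧
      ∀ x ∈ ball (β (b (e (p z)))) ρ₂, ‖φ x - x‖ < ε) :
    SlideAt n p F Θ r (fun j => (π ((h j)⁻¹ * h' j)).toLinearIsometry) z := by
  set x₀ := b (e (p z)) with hx₀
  set u₀ := yrc q r x₀ with hu₀
  set G : Cm r → W := fun u => F0 (ins (tq x₀) u) with hG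
  have hFz : F z = tq x₀ := hL.t_eq.self_of_nhds
  have hi0 : ins (tq x₀) u₀ = x₀ := ins_eta x₀
  obtain ⟨P, hP⟩ : ∃ P : Cm q →L[ℂ] Cm k, ∀ x, P (N x) = x := by
    obtain ⟨g, hg⟩ := LinearMap.exists_leftInverse_of_injective (N : Cm k →ₗ[ℂ] Cm q)
      (LinearMap.ker_eq_bot.2 hN)
    exact ⟨LinearMap.toContinuousLinearMap g, fun x => LinearMap.congr_fun hg x⟩
  have hGan : AnalyticAt ℂ G u₀ := by
    refine AnalyticAt.fun_comp ?_ (ins_an _ _)
    rw [hi0]; exact hL.F0an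
  have hGd : HasFDerivAt G (fderiv ℂ F0 x₀ ∘L insL q r) u₀ := by
    have h3 : HasFDerivAt F0 (fderiv ℂ F0 x₀) (ins (tq x₀) u₀) := by
      rw [hi0]; exact hL.F0an.differentiableAt.hasFDerivAt
    exact h3.comp u₀ (ins_hasFDerivAt _ _)
  have hb' : AnalyticAt ℂ (fun z => yrc q r (b z)) (e (p z)) :=
    ((yrc q r).analyticAt _).comp hL.ban
  refine ⟨e, fun z => yrc q r (b z), G, hL.mem, hb', hGan, ?_, ?_, ?_, ?_⟩
  · change Function.Injective (fderiv ℂ G u₀)
    rw [hGd.fderiv, injective_iff_map_eq_zero]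
    intro w hw
    have h3 := hL.F0imm (ins 0 w) (tq_ins _ _) hw
    have h4 := congrArg (yrc q r) h3
    rwa [yrc_ins, map_zero] at h4
  · intro x
    obtain ⟨ξ, hξ⟩ := hL.bsurj (ins 0 x)
    have hdb := hL.ban.differentiableAt.hasFDerivAt
    refine ⟨ξ, ?_, ?_⟩
    · rw [mem_VS hp hL.mem (f := fun z => tq (b z)) hL.t_eq]
      have h3 : HasFDerivAt (fun z => tq (b z)) (tqc q r ∘L fderiv ℂ b (e (p z))) (e (p z)) :=
        (tqc q r).hasFDerivAt.comp _ hdb
      rw [h3.fderiv, ContinuousLinearMap.comp_apply, hξ, tqc_apply, tq_ins]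
    · have h3 : HasFDerivAt (fun z => yrc q r (b z)) (yrc q r ∘L fderiv ℂ b (e (p z)))
          (e (p z)) := (yrc q r).hasFDerivAt.comp _ hdb
      rw [h3.fderiv, ContinuousLinearMap.comp_apply, hξ, yrc_ins]
  · have hbt : Tendsto (fun y => b (e (p y))) (𝓝 z) (𝓝 x₀) :=
      hL.ban.continuousAt.tendsto.comp (map_ep hp hL.mem).le
    filter_upwards [hL.pot, hL.t_eq.eventually_nhds, at_ev hp hL.mem,
      (ev_iff hp hL.mem).2 hL.ban.eventually_analyticAt,
      hbt.eventually hL.F0an.eventually_analyticAt] with y a1 a2 a3 a4 a5 hy ξ hξ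
    rw [a1 ξ hξ]
    have hty : F y = tq (b (e (p y))) := a2.self_of_nhds
    have hb0 : ins (tq x₀) (yrc q r (b (e (p y)))) = b (e (p y)) :=
      eq_ins_of_tq (by rw [← hty, hy, hFz])
    have hdb := a4.differentiableAt.hasFDerivAt
    have h3 : HasFDerivAt (fun z => F0 (b z))
        (fderiv ℂ F0 (b (e (p y))) ∘L fderiv ℂ b (e (p y))) (e (p y)) :=
      a5.differentiableAt.hasFDerivAt.comp _ hdb
    have h4 : HasFDerivAt (fun z => G (yrc q r (b z)))
        ((fderiv ℂ F0 (b (e (p y))) ∘L insL q r) ∘L (yrc q r ∘L fderiv ℂ b (e (p y))))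
        (e (p y)) := by
      have h5 : HasFDerivAt F0 (fderiv ℂ F0 (b (e (p y))))
          (ins (tq x₀) (yrc q r (b (e (p y))))) := by
        rw [hb0]; exact a5.differentiableAt.hasFDerivAt
      have h9 : HasFDerivAt (fun z => yrc q r (b z)) (yrc q r ∘L fderiv ℂ b (e (p y)))
          (e (p y)) := (yrc q r).hasFDerivAt.comp _ hdb
      have h10 := h5.comp (yrc q r (b (e (p y)))) (ins_hasFDerivAt (tq x₀) _)
      exact HasFDerivAt.comp (g := G) (f := fun z => yrc q r (b z)) (e (p y)) h10 h9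
    rw [h3.fderiv, h4.fderiv]
    have h6 : tq (fderiv ℂ b (e (p y)) ξ) = 0 := by
      have h7 := (mem_VS hp a3 (f := fun z => tq (b z)) a2).1 hξ
      have h8 : HasFDerivAt (fun z => tq (b z)) (tqc q r ∘L fderiv ℂ b (e (p y))) (e (p y)) :=
        (tqc q r).hasFDerivAt.comp _ hdb
      rw [h8.fderiv] at h7
      exact h7
    simp only [ContinuousLinearMap.comp_apply, insL_apply]
    rw [eq_ins_of_tq h6]
  · -- the slides
    obtain ⟨ρa, hρa, ha⟩ := exists_psi hdim hP hL.βan hL.trans hL.τan hL.leaf (c := c) hL.F0an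
      hL.sheet hρ
    obtain ⟨ρb, hρb, hb⟩ := exists_psi hdim hP hL.βan hL.trans hL.τan hL.leaf (c := c) hL.F0an
      hL.sheet hρ₂
    set ρ₁ := min ρa ρb with hρ₁
    have hρ₁0 : 0 < ρ₁ := lt_min hρa hρb
    have key : ∀ ε > 0, ∀ᶠ j in atTop, ∃ a : W × (Cm r → Cm r),
        (∀ x ∈ ball u₀ (ρ₁ / 16), π ((h j)⁻¹ * h' j) (G x) + a.1 = G (a.2 x)) ∧
        ∀ x ∈ ball u₀ (ρ₁ / 16), ‖a.2 x - x‖ < ε := by
      intro ε hε
      set η := min (ε / 4) (ρ₁ / 32) with hη
      have hη0 : 0 < η := by positivity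
      obtain ⟨δa, hδa, ha'⟩ := ha η hη0
      obtain ⟨δb, hδb, hb'⟩ := hb η hη0
      filter_upwards [h1 δa hδa, h2 δb hδb] with j hj1 hj2
      obtain ⟨φ, hφ, hφd⟩ := hj1
      obtain ⟨φ', hφ', hφd'⟩ := hj2
      obtain ⟨ψ, Ca, p1, p2, p3, p4⟩ := ha' (h j) φ hφ hφd
      obtain ⟨ψ', Cb, p1', p2', p3', p4'⟩ := hb' (h' j) φ' hφ' hφd'
      have hsa : ball x₀ ρ₁ ⊆ ball x₀ ρa := ball_subset_ball (min_le_left _ _)
      have hsb : ball x₀ ρ₁ ⊆ ball x₀ ρb := ball_subset_ball (min_le_right _ _)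
      have hins : ∀ u ∈ ball u₀ ρ₁, ins (tq x₀) u ∈ ball x₀ ρ₁ := fun u hu => ins_mem hu
      set θ : Cm r → Cm r := fun u => yrc q r (ψ (ins (tq x₀) u)) with hθ
      have hθd : DifferentiableOn ℂ θ (ball u₀ ρ₁) := by
        intro u hu
        have e1 : DifferentiableAt ℂ ψ (ins (tq x₀) u) :=
          (p1 _ (hsa (hins u hu))).differentiableAt (isOpen_ball.mem_nhds (hsa (hins u hu)))
        exact ((yrc q r).differentiableAt.comp u
          (e1.comp u (ins_hasFDerivAt _ _).differentiableAt)).differentiableWithinAt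
      have hθn : ∀ u ∈ ball u₀ ρ₁, ‖θ u - u‖ ≤ η := by
        intro u hu
        have e1 := p2 _ (hsa (hins u hu))
        have e2 : θ u - u = yrc q r (ψ (ins (tq x₀) u) - ins (tq x₀) u) := by
          rw [map_sub, yrc_ins]
        rw [e2]
        exact (norm_yrc_le _).trans e1.le
      have hθn' : ∀ u ∈ ball u₀ ρ₁, ‖yrc q r (ψ' (ins (tq x₀) u)) - u‖ ≤ η := by
        intro u hu
        have e1 := p2' _ (hsb (hins u hu))
        have e2 : yrc q r (ψ' (ins (tq x₀) u)) - u =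
            yrc q r (ψ' (ins (tq x₀) u) - ins (tq x₀) u) := by
          rw [map_sub, yrc_ins]
        rw [e2]
        exact (norm_yrc_le _).trans e1.le
      have hex : ∀ u : Cm r, ∃ x : Cm r, u ∈ ball u₀ (ρ₁ / 16) →
          x ∈ ball u₀ (ρ₁ / 4) ∧ θ x = yrc q r (ψ' (ins (tq x₀) u)) ∧
          ‖x - yrc q r (ψ' (ins (tq x₀) u))‖ ≤ η := by
        intro u
        by_cases hu : u ∈ ball u₀ (ρ₁ / 16)
        · have hu1 : u ∈ ball u₀ ρ₁ := ball_subset_ball (by linarith) hu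
          have hy : yrc q r (ψ' (ins (tq x₀) u)) ∈ ball u₀ (ρ₁ / 8) := by
            have e1 := hθn' u hu1
            have e2 : η ≤ ρ₁ / 32 := min_le_right _ _
            rw [mem_ball, dist_eq_norm] at *
            calc ‖yrc q r (ψ' (ins (tq x₀) u)) - u₀‖
                = ‖(yrc q r (ψ' (ins (tq x₀) u)) - u) + (u - u₀)‖ := by rw [sub_add_sub_cancel]
              _ ≤ ‖yrc q r (ψ' (ins (tq x₀) u)) - u‖ + ‖u - u₀‖ := norm_add_le _ _
              _ < ρ₁ / 8 := by linarith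
          obtain ⟨x, hx1, hx2, hx3⟩ := onto_near hρ₁0 hθd hθn (min_le_right _ _) hy
          exact ⟨x, fun _ => ⟨hx1, hx2, hx3⟩⟩
        · exact ⟨0, fun h => absurd h hu⟩
      choose χ hχ using hex
      refine ⟨((π (h j))⁻¹ (Cb - Ca), χ), fun u hu => ?_, fun u hu => ?_⟩
      · obtain ⟨c1, c2, c3⟩ := hχ u hu
        have hu1 : u ∈ ball u₀ ρ₁ := ball_subset_ball (by linarith) hu
        have hx1 : χ u ∈ ball u₀ ρ₁ := ball_subset_ball (by linarith) c1
        have d1 := p4 _ (hsa (hins _ hx1)) (tq_ins _ _)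
        have d2 := p4' _ (hsb (hins _ hu1)) (tq_ins _ _)
        have d3 := p3 _ (hsa (hins _ hx1))
        have d4 := p3' _ (hsb (hins _ hu1))
        rw [tq_ins] at d3 d4
        rw [hc j] at d4
        have d5 : ψ (ins (tq x₀) (χ u)) = ψ' (ins (tq x₀) u) := by
          rw [← ins_eta (ψ (ins (tq x₀) (χ u))), ← ins_eta (ψ' (ins (tq x₀) u)), d3, d4]
          congr 1
        rw [d5, d2] at d1
        -- d1 : π (h' j) (G u) + Cb = π (h j) (G (χ u)) + Ca
        have d6 : (π (h j))⁻¹ (π (h' j) (G u) + Cb) = (π (h j))⁻¹ (π (h j) (G (χ u)) + Ca) :=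
          congrArg _ d1
        rw [map_add, map_add] at d6
        have d7 : (π (h j))⁻¹ (π (h j) (G (χ u))) = G (χ u) := (π (h j)).symm_apply_apply _
        rw [d7] at d6
        have d8 : π ((h j)⁻¹ * h' j) (G u) = (π (h j))⁻¹ (π (h' j) (G u)) := by
          rw [map_mul, map_inv]; rfl
        show π ((h j)⁻¹ * h' j) (G u) + (π (h j))⁻¹ (Cb - Ca) = G (χ u)
        rw [d8, map_sub, add_sub, d6]
        abel
      · obtain ⟨c1, c2, c3⟩ := hχ u hu
        have hu1 : u ∈ ball u₀ ρ₁ := ball_subset_ball (by linarith) hu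
        have e1 := hθn' u hu1
        have e2 : η ≤ ε / 4 := min_le_left _ _
        show ‖χ u - u‖ < ε
        calc ‖χ u - u‖ = ‖(χ u - yrc q r (ψ' (ins (tq x₀) u))) +
              (yrc q r (ψ' (ins (tq x₀) u)) - u)‖ := by rw [sub_add_sub_cancel]
          _ ≤ ‖χ u - yrc q r (ψ' (ins (tq x₀) u))‖ +
              ‖yrc q r (ψ' (ins (tq x₀) u)) - u‖ := norm_add_le _ _
          _ < ε := by linarith
    obtain ⟨a, ha1⟩ := diag (fun j ε ε' a hle h => ⟨h.1, fun x hx => (h.2 x hx).trans_le hle⟩) key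
    refine ⟨fun j => (a j).1, fun j => (a j).2, ρ₁ / 16, by positivity, ?_, fun ε hε => ?_⟩
    · filter_upwards [ha1 1 one_pos] with j hj x hx
      exact hj.1 x hx
    · filter_upwards [ha1 ε hε] with j hj x hx
      exact hj.2 x hx

end

end Vale.Agent.P284.H378
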